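import Vale.Agent.P277.H60.X.Main
import Vale.Agent.P277.H884.PL4
import Vale.Agent.P277.H622.B1
import Vale.Agent.P277.H762.L1
import Vale.Agent.P277.H762.L3

/-! P277, T3: `StEx` -/

namespace Vale.Agent.P277.H60.X

theorem stEx : Vale.Agent.P277.T3.StEx :=
  stEx_of Vale.Agent.P277.H884.PL.stPlace H622.stB1 H762.stL1 H762.stL3

end Vale.Agent.P277.H60.X
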