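import Vale.Agent.P277.H60.X.Ord

/-!
# P277, T3: `StEx`
-/

open scoped Manifold ContDiff Topology
open Vale.Agent.P272.K Vale.Agent.P285.H281.FD Set Filter Metric

set_option linter.unusedSectionVars false

noncomputable section

namespace Vale.Agent.P277.H60.X

open Vale.Agent.P277 Vale.Agent.P277.H762 Vale.Agent.P277.T3 Vale.Agent.P277.PH

variable {X : CSp} {S : Set X.pt}
variable {Y H : Type} [TopologicalSpace Y] [ChartedSpace (Cm 4) Y] [TopologicalSpace H]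
  [ChartedSpace (Cm 3) H]
variable {B : Set X.pt} {O : Set Y} {v : Y → X.pt} {ι : H → Y}

/-- neighbourhoods in `S` of good points are not one-dimensional -/
theorem not_dimLe_of_good {x : X.pt} (hx : x ∈ GS S B O v ι) {V : Set X.pt} (hV : IsOpen V)
    (hxV : x ∈ V) : ¬ DimLe X 1 (V ∩ S) := by
  obtain ⟨d, g, p₀, r, Γ, q, hG, rfl⟩ := hx
  intro hcon
  have hUo : IsOpen {p | p ∈ ball p₀ r ∧ g p ∈ V} := by
    rw [isOpen_iff_mem_nhds]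
    rintro p ⟨hp, hpV⟩
    exact inter_mem (isOpen_ball.mem_nhds hp) ((hG.gcont p hp).preimage_mem_nhds (hV.mem_nhds hpV))
  refine hG.ndim {p | p ∈ ball p₀ r ∧ g p ∈ V} (fun p hp => hp.1) hUo
    ⟨p₀, mem_ball_self hG.pos, hxV⟩ (hcon.mono ?_)
  rintro _ ⟨p, ⟨hp, hpV⟩, rfl⟩
  obtain ⟨W, hW, hWS⟩ := hG.openS _ Subset.rfl isOpen_ball
  have : g p ∈ W ∩ S := by rw [hWS]; exact ⟨p, hp, rfl⟩
  exact ⟨hpV, this.2⟩

variable {d : ℕ} {g : Cm 2 → X.pt} {p₀ : Cm 2} {r : ℝ} {Γ : Fin d → Cm 3 → X.pt}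
  {q : Fin d → Cm 3 → H} {N : ℕ} {D : Fin N → Set H} {u : Fin N → H → ℝ} {ρ : ℝ}
  {m : Fin d → Fin N → ℕ} {F : Fin d → Fin N → Cm 3 → ℂ} {C : Fin d → Fin N → ℝ} {Z : Set (Cm 2)}

theorem good_nbhd (hG : Good S B O v ι d g p₀ r Γ q) (hO : OrdData D u p₀ r q ρ m F C Z) :
    ∃ V : Set X.pt, IsOpen V ∧ g p₀ ∈ V ∧ ∀ y ∈ V, y ∈ S →
      y ∈ g '' (ball p₀ r ∩ Z) ∨ ∃ p ∈ ball p₀ ρ, p ∉ Z ∧ g p = y := by
  obtain ⟨V, hV, hVS⟩ := hG.openS (ball p₀ ρ) (ball_subset_ball hO.le) isOpen_ball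
  have h1 : g p₀ ∈ V ∩ S := by rw [hVS]; exact ⟨p₀, mem_ball_self hO.pos, rfl⟩
  refine ⟨V, hV, h1.1, fun y hy hyS => ?_⟩
  have h2 : y ∈ V ∩ S := ⟨hy, hyS⟩
  rw [hVS] at h2
  obtain ⟨p, hp, rfl⟩ := h2
  by_cases hpZ : p ∈ Z
  · exact Or.inl ⟨p, ⟨ball_subset_ball hO.le hp, hpZ⟩, rfl⟩
  · exact Or.inr ⟨p, hp, hpZ, rfl⟩

theorem stEx_of (hPl : StPlace) (hB1 : StB1) (hL1 : StL1) (hL3 : StL3) : StEx := by
  classical
  intro Y _ _ _ _ _ H _ _ _ _ _ ι hι X O v hv hdim hLi B hBc hBe hBH S hS hS2 hSB hSO hreg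
  have hX : Nonempty X.pt := hdim.nonempty
  rcases isEmpty_or_nonempty H with hH | hH
  · refine ⟨0, fun N D w hw => ⟨0, fun c _ => dimLe_empty.mono ?_⟩⟩
    rintro x ⟨hxS, hx⟩
    exact (hx ⟨0, Eventually.of_forall fun x' y => (hH.false y).elim⟩).elim
  set T : Set X.pt := S \ GS S B O v ι with hTdef
  have hT : IsClosed T := isClosed_bad (isClosed_of_isAn hS)
  have hT1 : DimLe X 1 T := bad_thin hPl hB1 hL1 hι hv hdim hLi hBe hBH hS hS2 hreg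
  have hST : ∀ x, x ∈ S \ T → x ∈ GS S B O v ι := by
    intro x hx
    by_contra hcon
    exact hx.2 ⟨hx.1, hcon⟩
  obtain ⟨K₀, c₀, hcomp⟩ := hL3 X S T hS hS2 hT sdiff_subset hT1 fun x hx => GS_surf (hST x hx)
  have hdat : ∀ i : Fin K₀, ∃ (d : ℕ) (g : Cm 2 → X.pt) (p₀ : Cm 2) (r : ℝ)
      (Γ : Fin d → Cm 3 → X.pt) (q : Fin d → Cm 3 → H), c₀ i ∈ S \ T →
        Good S B O v ι d g p₀ r Γ q ∧ g p₀ = c₀ i := by
    intro i
    by_cases hi : c₀ i ∈ S \ T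
    · obtain ⟨d, g, p₀, r, Γ, q, hG⟩ := hST _ hi
      exact ⟨d, g, p₀, r, Γ, q, fun _ => hG⟩
    · exact ⟨0, fun _ => hX.some, 0, 0, fun k => k.elim0, fun k => k.elim0, fun h => (hi h).elim⟩
  choose d g p₀ r Γ q hgood using hdat
  refine ⟨Fintype.card (Σ i, Fin (d i)), fun N D u hu => ?_⟩
  have hord : ∀ i : Fin K₀, ∃ (ρ : ℝ) (m : Fin (d i) → Fin N → ℕ) (F : Fin (d i) → Fin N → Cm 3 → ℂ)
      (C : Fin (d i) → Fin N → ℝ) (Z : Set (Cm 2)), c₀ i ∈ S \ T →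
        OrdData D u (p₀ i) (r i) (q i) ρ m F C Z := by
    intro i
    by_cases hi : c₀ i ∈ S \ T
    · obtain ⟨ρ, m, F, C, Z, h⟩ := exists_ordData hB1 (hgood i hi).1 hu
      exact ⟨ρ, m, F, C, Z, fun _ => h⟩
    · exact ⟨0, fun _ _ => 0, fun _ _ _ => 0, fun _ _ => 0, ∅, fun h => (hi h).elim⟩
  choose ρ m F C Z hO using hord
  let e := Fintype.equivFin (Σ i, Fin (d i))
  let Λ : (Fin N → ℝ) →ₗ[ℝ] (Fin (Fintype.card (Σ i, Fin (d i))) → ℝ) :=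
    { toFun := fun c a => ∑ j, c j * (m (e.symm a).1 (e.symm a).2 j : ℝ)
      map_add' := fun c c' => by
        funext a
        simp only [Pi.add_apply, add_mul, Finset.sum_add_distrib]
      map_smul' := fun t c => by
        funext a
        simp only [Pi.smul_apply, smul_eq_mul, RingHom.id_apply, Finset.mul_sum, mul_assoc] }
  refine ⟨Λ, fun c hc => ?_⟩
  have hsum : ∀ (i : Fin K₀) (k : Fin (d i)), ∑ j, c j * (m i k j : ℝ) = 0 := by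
    intro i k
    have h1 := congrFun hc (e ⟨i, k⟩)
    have h2 : ∑ j, c j * (m (e.symm (e ⟨i, k⟩)).1 (e.symm (e ⟨i, k⟩)).2 j : ℝ) = 0 := h1
    rw [e.symm_apply_apply] at h2
    exact h2
  set Bd₀ : X.pt → Prop := fun x => BdAt (ι ⁻¹' O) (⋃ i, D i) (fun y => v (ι y))
    (fun y => ∑ i, c i * u i y) x with hBd₀
  -- the open sets
  set A₁ : Set X.pt := {x | ∃ V : Set X.pt, IsOpen V ∧ x ∈ V ∧
    DimLe X 1 {y | y ∈ V ∧ y ∈ S ∧ ¬ Bd₀ y}} with hA₁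
  set A₂ : Set X.pt := {x | ∃ V : Set X.pt, IsOpen V ∧ x ∈ V ∧
    DimLe X 1 {y | y ∈ V ∧ y ∈ S ∧ Bd₀ y}} with hA₂
  have hA₁o : IsOpen A₁ := by
    rw [isOpen_iff_mem_nhds]
    rintro x ⟨V, hV, hxV, hd⟩
    filter_upwards [hV.mem_nhds hxV] with y hy using ⟨V, hV, hy, hd⟩
  have hA₂o : IsOpen A₂ := by
    rw [isOpen_iff_mem_nhds]
    rintro x ⟨V, hV, hxV, hd⟩
    filter_upwards [hV.mem_nhds hxV] with y hy using ⟨V, hV, hy, hd⟩
  -- dichotomy at good points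
  have hdich : ∀ x ∈ S \ T, x ∈ A₁ ∨ x ∈ A₂ := by
    intro x hx
    obtain ⟨d', g', p', r', Γ', q', hG, rfl⟩ := hST x hx
    obtain ⟨ρ', m', F', C', Z', hO'⟩ := exists_ordData hB1 hG hu
    obtain ⟨V, hV, hpV, hVS⟩ := good_nbhd hG hO'
    by_cases hall : ∀ k, ∑ j, c j * (m' k j : ℝ) = 0
    · left
      refine ⟨V, hV, hpV, (hG.dim Z' hO'.thin).mono ?_⟩
      rintro y ⟨hy, hyS, hyb⟩
      rcases hVS y hy hyS with h | ⟨p, hp, hpZ, rfl⟩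
      · exact h
      · exact (hyb (bd_of hG hv hι hBH hSO hO' c hall hp hpZ)).elim
    · right
      push Not at hall
      obtain ⟨k, hk⟩ := hall
      refine ⟨V, hV, hpV, (hG.dim Z' hO'.thin).mono ?_⟩
      rintro y ⟨hy, hyS, hyb⟩
      rcases hVS y hy hyS with h | ⟨p, hp, hpZ, rfl⟩
      · exact h
      · exact (not_bd_of hG hv hu hO' c hk hp hpZ hyb).elim
  have hdisj : ∀ x ∈ S \ T, ¬ (x ∈ A₁ ∧ x ∈ A₂) := by
    rintro x hx ⟨⟨V, hV, hxV, hd⟩, ⟨V', hV', hxV', hd'⟩⟩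
    refine not_dimLe_of_good (hST x hx) (hV.inter hV') ⟨hxV, hxV'⟩ ((hd.union hd').mono ?_)
    rintro y ⟨⟨hy, hy'⟩, hyS⟩
    by_cases hyb : Bd₀ y
    · exact Or.inr ⟨hy', hyS, hyb⟩
    · exact Or.inl ⟨hy, hyS, hyb⟩
  -- the base points
  have hbase : ∀ i, c₀ i ∈ S \ T → c₀ i ∈ A₁ := by
    intro i hi
    obtain ⟨hG, hgp⟩ := hgood i hi
    obtain ⟨V, hV, hpV, hVS⟩ := good_nbhd hG (hO i hi)
    rw [← hgp]
    refine ⟨V, hV, hpV, (hG.dim (Z i) (hO i hi).thin).mono ?_⟩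
    rintro y ⟨hy, hyS, hyb⟩
    rcases hVS y hy hyS with h | ⟨p, hp, hpZ, rfl⟩
    · exact h
    · exact (hyb (bd_of hG hv hι hBH hSO (hO i hi) c (hsum i) hp hpZ)).elim
  have hall : ∀ x ∈ S \ T, x ∈ A₁ := by
    intro x hx
    obtain ⟨i, hi⟩ := hcomp x hx
    have hci : c₀ i ∈ S \ T := by
      by_contra hcon
      rw [connectedComponentIn_eq_empty hcon] at hi
      exact hi
    by_contra hxA
    have hxA2 : x ∈ A₂ := (hdich x hx).resolve_left hxA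
    obtain ⟨y, hy, hy1, hy2⟩ := isPreconnected_connectedComponentIn A₁ A₂ hA₁o hA₂o
      (fun y hy => hdich y (connectedComponentIn_subset _ _ hy))
      ⟨c₀ i, mem_connectedComponentIn hci, hbase i hci⟩ ⟨x, hi, hxA2⟩
    exact hdisj y (connectedComponentIn_subset _ _ hy) ⟨hy1, hy2⟩
  have h3 : DimLe X 1 {x | x ∈ S \ T ∧ ¬ Bd₀ x} := by
    refine dimLe_of_local ?_
    rintro x ⟨hx, -⟩
    obtain ⟨V, hV, hxV, hd⟩ := hall x hx
    refine ⟨V, hV, hxV, hd.mono ?_⟩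
    rintro y ⟨hy, hyST, hyb⟩
    exact ⟨hy, hyST.1, hyb⟩
  refine (hT1.union h3).mono ?_
  rintro x ⟨hxS, hxb⟩
  by_cases hxT : x ∈ T
  · exact Or.inl hxT
  · exact Or.inr ⟨⟨hxS, hxT⟩, hxb⟩

end Vale.Agent.P277.H60.X
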