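import Vale.Agent.P277.H60.X.Lft

/-!
# P277, T3, EX: good points of surfaces
-/

open scoped Manifold ContDiff Topology
open Vale.Agent.P272.K Vale.Agent.P285.H281.FD Set Filter Metric

set_option linter.unusedSectionVars false

noncomputable section

namespace Vale.Agent.P277.H60.X

open Vale.Agent.P277 Vale.Agent.P277.H762 Vale.Agent.P277.T3

/-- `(0, p)` -/
def zx (p : Cm 2) : Cm 3 := ![0, p 0, p 1]

/-- `(0, 0, p)` -/
def zz (p : Cm 2) : Cm 4 := ![0, 0, p 0, p 1]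

theorem zx_zero (p : Cm 2) : zx p 0 = 0 := rfl

theorem dist_zx (p p' : Cm 2) : dist (zx p) (zx p') = dist p p' := by
  refine le_antisymm ?_ ?_
  · refine (dist_pi_le_iff dist_nonneg).2 fun i => ?_
    fin_cases i
    · simp [zx]
    · exact dist_le_pi_dist p p' 0
    · exact dist_le_pi_dist p p' 1
  · refine (dist_pi_le_iff dist_nonneg).2 fun i => ?_
    fin_cases i
    · exact dist_le_pi_dist (zx p) (zx p') 1
    · exact dist_le_pi_dist (zx p) (zx p') 2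

theorem dist_zz (p p' : Cm 2) : dist (zz p) (zz p') = dist p p' := by
  refine le_antisymm ?_ ?_
  · refine (dist_pi_le_iff dist_nonneg).2 fun i => ?_
    fin_cases i
    · simp [zz]
    · simp [zz]
    · exact dist_le_pi_dist p p' 0
    · exact dist_le_pi_dist p p' 1
  · refine (dist_pi_le_iff dist_nonneg).2 fun i => ?_
    fin_cases i
    · exact dist_le_pi_dist (zz p) (zz p') 2
    · exact dist_le_pi_dist (zz p) (zz p') 3

theorem zx_an (p : Cm 2) : AnalyticAt ℂ zx p := by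
  refine AnalyticAt.pi fun k => ?_
  fin_cases k
  · exact analyticAt_const
  · exact (ContinuousLinearMap.proj (R := ℂ) (φ := fun _ : Fin 2 => ℂ) 0).analyticAt p
  · exact (ContinuousLinearMap.proj (R := ℂ) (φ := fun _ : Fin 2 => ℂ) 1).analyticAt p

theorem zz_an (p : Cm 2) : AnalyticAt ℂ zz p := by
  refine AnalyticAt.pi fun k => ?_
  fin_cases k
  · exact analyticAt_const
  · exact analyticAt_const
  · exact (ContinuousLinearMap.proj (R := ℂ) (φ := fun _ : Fin 2 => ℂ) 0).analyticAt p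
  · exact (ContinuousLinearMap.proj (R := ℂ) (φ := fun _ : Fin 2 => ℂ) 1).analyticAt p

/-- the last two coordinates -/
def lst (z : Cm 4) : Cm 2 := ![z 2, z 3]

theorem lst_an (z : Cm 4) : AnalyticAt ℂ lst z := by
  refine AnalyticAt.pi fun k => ?_
  fin_cases k
  · exact (ContinuousLinearMap.proj (R := ℂ) (φ := fun _ : Fin 4 => ℂ) 2).analyticAt z
  · exact (ContinuousLinearMap.proj (R := ℂ) (φ := fun _ : Fin 4 => ℂ) 3).analyticAt z

theorem lst_zz (p : Cm 2) : lst (zz p) = p := by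
  ext i; fin_cases i <;> rfl

theorem zz_lst {z : Cm 4} (h0 : z 0 = 0) (h1 : z 1 = 0) : zz (lst z) = z := by
  ext i
  fin_cases i
  · exact h0.symm
  · exact h1.symm
  · rfl
  · rfl

theorem continuous_of_an {m k : ℕ} {F : Cm m → Cm k} (h : ∀ p, AnalyticAt ℂ F p) : Continuous F :=
  continuous_iff_continuousAt.2 fun p => (h p).continuousAt

variable {X : CSp} {S : Set X.pt} {ψ : Cm 4 → X.pt} {D : Set (Cm 4)}

theorem SChart.surf (h : SChart X S ψ D) {z : Cm 4} (hz : z ∈ D) (h0 : z 0 = 0) (h1 : z 1 = 0) :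
    IsSurfX X S (ψ z) := by
  have hDo : IsOpen (ψ '' D) := h.openMap D Subset.rfl h.isOpen
  have hzD : ψ z ∈ ψ '' D := mem_image_of_mem _ hz
  refine ⟨{p | zz p ∈ D}, fun p => ψ (zz p), fun y => lst (SChart.inv ψ D y), ?_, ?_, ?_, ?_, ?_, ?_⟩
  · exact h.isOpen.preimage (continuous_of_an zz_an)
  · intro p hp
    exact HolAt.comp (h.holAt hp) (zz_an p)
  · refine ⟨lst z, ?_, ?_⟩
    · show zz (lst z) ∈ D
      rw [zz_lst h0 h1]; exact hz
    · show ψ (zz (lst z)) = ψ z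
      rw [zz_lst h0 h1]
  · intro i
    filter_upwards [hDo.mem_nhds hzD] with y hy
    fin_cases i
    · exact h.inv_hol hy 2
    · exact h.inv_hol hy 3
  · intro p hp
    show lst (SChart.inv ψ D (ψ (zz p))) = p
    rw [h.inv_apply hp, lst_zz]
  · filter_upwards [hDo.mem_nhds hzD] with y hy
    obtain ⟨z', hz', rfl⟩ := hy
    rw [h.mem z' hz', h.inv_apply hz']
    constructor
    · rintro ⟨h2, h3⟩
      have h4 := zz_lst h2 h3
      refine ⟨?_, ?_⟩
      · show zz (lst z') ∈ D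
        rw [h4]; exact hz'
      · show ψ (zz (lst z')) = ψ z'
        rw [h4]
    · rintro ⟨h2, h3⟩
      have h4 : zz (lst z') = z' := h.inj h2 hz' h3
      rw [← h4]
      exact ⟨rfl, rfl⟩

theorem SChart.map_nhds (h : SChart X S ψ D) {z : Cm 4} (hz : z ∈ D) :
    Filter.map ψ (𝓝 z) = 𝓝 (ψ z) := by
  refine le_antisymm (h.cont z hz) ?_
  intro U hU
  obtain ⟨W, hW, hWo, hzW⟩ := _root_.mem_nhds_iff.1 (Filter.mem_map.1 hU)
  refine mem_of_superset ((h.openMap (W ∩ D) inter_subset_right (hWo.inter h.isOpen)).mem_nhds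
    ⟨z, ⟨hzW, hz⟩, rfl⟩) ?_
  rintro _ ⟨w, hw, rfl⟩
  exact hW hw.1

variable {Y H : Type} [TopologicalSpace Y] [ChartedSpace (Cm 4) Y] [TopologicalSpace H]
  [ChartedSpace (Cm 3) H]

/-- a good parametrisation of `S` near `g p₀`, with the places of `B` along `S` -/
structure Good (S B : Set X.pt) (O : Set Y) (v : Y → X.pt) (ι : H → Y) (d : ℕ)
    (g : Cm 2 → X.pt) (p₀ : Cm 2) (r : ℝ) (Γ : Fin d → Cm 3 → X.pt) (q : Fin d → Cm 3 → H) :
    Prop where
  pos : 0 < r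
  gcont : ∀ p ∈ ball p₀ r, ContinuousAt g p
  openS : ∀ U ⊆ ball p₀ r, IsOpen U → ∃ V : Set X.pt, IsOpen V ∧ V ∩ S = g '' U
  dim : ∀ T : Set (Cm 2), Cv 1 T → DimLe X 1 (g '' (ball p₀ r ∩ T))
  ndim : ∀ U ⊆ ball p₀ r, IsOpen U → U.Nonempty → ¬ DimLe X 1 (g '' U)
  surf : ∀ p ∈ ball p₀ r, IsSurfX X S (g p)
  cont : ∀ k, ∀ w ∈ ball (zx p₀) r, ContinuousAt (Γ k) w
  exc : ∀ k, ∀ p ∈ ball p₀ r, Γ k (zx p) = g p
  lift : ∀ k, ∀ w ∈ ball (zx p₀) r, LiftD O v ι (Γ k) (q k) w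
  dense : ∀ k, ∀ N ⊆ ball (zx p₀) r, IsOpen N → N.Nonempty → ∃ w ∈ N, Γ k w ∈ v '' O
  gen : ∀ k, ∀ N ⊆ ball (zx p₀) r, IsOpen N → N.Nonempty → (interior (q k '' N)).Nonempty
  cover : ∀ p ∈ ball p₀ r, ∀ ε > 0, ∀ᶠ y in 𝓝 (g p), y ∈ B → y ∉ S →
    ∃ k, ∃ w ∈ ball (zx p) ε, Γ k w = y

variable {B : Set X.pt} {O : Set Y} {v : Y → X.pt} {ι : H → Y} {d : ℕ} {g : Cm 2 → X.pt}
  {p₀ : Cm 2} {r : ℝ} {Γ : Fin d → Cm 3 → X.pt} {q : Fin d → Cm 3 → H}

theorem Good.mono (h : Good S B O v ι d g p₀ r Γ q) {p₁ : Cm 2} {r₁ : ℝ} (hr : 0 < r₁)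
    (hb : r₁ + dist p₁ p₀ ≤ r) : Good S B O v ι d g p₁ r₁ Γ q := by
  have h1 : ball p₁ r₁ ⊆ ball p₀ r := ball_subset_ball' hb
  have h2 : ball (zx p₁) r₁ ⊆ ball (zx p₀) r := ball_subset_ball' (by rw [dist_zx]; exact hb)
  exact ⟨hr, fun p hp => h.gcont p (h1 hp), fun U hU => h.openS U (hU.trans h1), fun T hT => (h.dim T hT).mono (by
    rintro _ ⟨p, hp, rfl⟩
    exact ⟨p, ⟨h1 hp.1, hp.2⟩, rfl⟩), fun U hU => h.ndim U (hU.trans h1),
    fun p hp => h.surf p (h1 hp), fun k w hw => h.cont k w (h2 hw),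
    fun k p hp => h.exc k p (h1 hp), fun k w hw => h.lift k w (h2 hw),
    fun k N hN => h.dense k N (hN.trans h2), fun k N hN => h.gen k N (hN.trans h2),
    fun p hp => h.cover p (h1 hp)⟩

end Vale.Agent.P277.H60.X
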