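import Vale.Agent.P277.H60.X.Str
import Vale.Agent.P277.H884.Div

/-!
# P277, T3, EX: places: generic rank, density
-/

open scoped Manifold ContDiff Topology
open Vale.Agent.P272.K Vale.Agent.P285.H281.FD Set Filter Metric

noncomputable section

namespace Vale.Agent.P277.H60.X

open Vale.Agent.P277 Vale.Agent.P277.H762

/-- a place -/
structure IsPl (σ : Cm 4 → ℂ) (b : Cm 3) (r : ℝ) (γ : Cm 3 → Cm 4) : Prop where
  an : ∀ w ∈ ball b r, AnalyticAt ℂ γ w
  zero : ∀ w ∈ ball b r, σ (γ w) = 0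
  c2 : ∀ w ∈ ball b r, γ w 2 = w 1
  c3 : ∀ w ∈ ball b r, γ w 3 = w 2
  exc : ∀ w ∈ ball b r, (w 0 = 0 ↔ γ w 0 = 0 ∧ γ w 1 = 0)

variable {σ : Cm 4 → ℂ} {b : Cm 3} {r : ℝ} {γ : Cm 3 → Cm 4}

/-- nonempty open sets contain points with `w 0 ≠ 0` -/
theorem exists_ne_zero {n : ℕ} {N : Set (Cm (n + 1))} (hN : IsOpen N) (hne : N.Nonempty) :
    ∃ w ∈ N, w 0 ≠ 0 := by
  obtain ⟨w, hw⟩ := hne
  by_cases h0 : w 0 = 0
  swap
  · exact ⟨w, hw, h0⟩
  have h1 : ContinuousAt (fun t : ℂ => Function.update w 0 t) 0 :=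
    (H884.differentiable_update w).continuous.continuousAt
  have h2 : Function.update w 0 0 = w := by rw [← h0]; exact Function.update_eq_self 0 w
  have h3 : ∀ᶠ t : ℂ in 𝓝 0, Function.update w 0 t ∈ N := by
    refine h1.eventually (hN.mem_nhds ?_)
    show Function.update w 0 0 ∈ N
    rw [h2]; exact hw
  have h4 : ∃ᶠ t : ℂ in 𝓝 0, t ≠ 0 := by
    have : (𝓝[≠] (0 : ℂ)).NeBot := inferInstance
    exact (mem_closure_iff_frequently.1 (by
      rw [mem_closure_iff_nhdsWithin_neBot]; exact this) : ∃ᶠ t in 𝓝 (0 : ℂ), t ∈ ({0}ᶜ : Set ℂ))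
  obtain ⟨t, ht, ht'⟩ := (h4.and_eventually h3).exists
  exact ⟨_, ht', by simpa using ht⟩

theorem fderiv_coord {m k : ℕ} {F : Cm m → Cm k} {p : Cm m} (hF : DifferentiableAt ℂ F p) (i : Fin k)
    (v : Cm m) : fderiv ℂ (fun q => F q i) p v = fderiv ℂ F p v i := by
  rw [fderiv_apply hF]
  rfl

/-- places have generic rank three -/
theorem IsPl.exists_inj (h : IsPl σ b r γ) (hb : b 0 = 0) {N : Set (Cm 3)} (hN : IsOpen N)
    (hNb : N ⊆ ball b r) (hne : N.Nonempty) :
    ∃ w ∈ N, Function.Injective (fderiv ℂ γ w) := by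
  by_contra hcon
  push Not at hcon
  have h1 : ∀ w ∈ N, fderiv ℂ γ w (Pi.single 0 1) = 0 := by
    intro w hw
    have hni := hcon w hw
    rw [injective_iff_map_eq_zero] at hni
    push Not at hni
    obtain ⟨v, hv, hv0⟩ := hni
    have hd := (h.an w (hNb hw)).differentiableAt
    have hball := isOpen_ball.mem_nhds (hNb hw)
    have hv1 : v 1 = 0 := by
      have h2 := fderiv_coord hd 2 v
      rw [hv] at h2
      have h3 : (fun q => γ q 2) =ᶠ[𝓝 w] fun q => q 1 := by
        filter_upwards [hball] with q hq using h.c2 q hq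
      rw [h3.fderiv_eq] at h2
      have h4 : fderiv ℂ (fun q : Cm 3 => q 1) w =
          (ContinuousLinearMap.proj (R := ℂ) (φ := fun _ : Fin 3 => ℂ) 1) :=
        (ContinuousLinearMap.proj (R := ℂ) (φ := fun _ : Fin 3 => ℂ) 1).fderiv (x := w)
      rw [h4] at h2
      exact h2
    have hv2 : v 2 = 0 := by
      have h2 := fderiv_coord hd 3 v
      rw [hv] at h2
      have h3 : (fun q => γ q 3) =ᶠ[𝓝 w] fun q => q 2 := by
        filter_upwards [hball] with q hq using h.c3 q hq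
      rw [h3.fderiv_eq] at h2
      have h4 : fderiv ℂ (fun q : Cm 3 => q 2) w =
          (ContinuousLinearMap.proj (R := ℂ) (φ := fun _ : Fin 3 => ℂ) 2) :=
        (ContinuousLinearMap.proj (R := ℂ) (φ := fun _ : Fin 3 => ℂ) 2).fderiv (x := w)
      rw [h4] at h2
      exact h2
    have hvs : v = v 0 • (Pi.single 0 1 : Cm 3) := by
      ext i
      fin_cases i
      · simp
      · simpa using hv1
      · simpa using hv2
    have hv00 : v 0 ≠ 0 := by
      intro h0
      rw [h0, zero_smul] at hvs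
      exact hv0 hvs
    rw [hvs, map_smul] at hv
    exact (smul_eq_zero.1 hv).resolve_left hv00
  have han : AnalyticOnNhd ℂ (fun w => fderiv ℂ γ w (Pi.single 0 1)) (ball b r) := by
    intro w hw
    exact ((ContinuousLinearMap.apply ℂ (Cm 4) (Pi.single 0 1 : Cm 3)).analyticAt _).comp
      (h.an w hw).fderiv
  obtain ⟨w, hw, hw0⟩ := exists_ne_zero hN hne
  have h2 : EqOn (fun w => fderiv ℂ γ w (Pi.single 0 1)) 0 (ball b r) := by
    refine han.eqOn_zero_of_preconnected_of_eventuallyEq_zero (convex_ball _ _).isPreconnected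
      (hNb hw) ?_
    filter_upwards [hN.mem_nhds hw] with q hq using h1 q hq
  have hwb := hNb hw
  have hr : 0 < r := dist_nonneg.trans_lt (mem_ball.1 hwb)
  have hder : ∀ t ∈ ball (0 : ℂ) r, HasDerivAt (fun t => γ (Function.update w 0 t)) 0 t := by
    intro t ht
    have hm : Function.update w 0 t ∈ ball b r :=
      H884.update_mem_ball hb hwb (by simpa using ht)
    have h3 : HasDerivAt (fun t : ℂ => Function.update w 0 t) (Pi.single 0 1) t := by
      have := hasDerivAt_update w 0 t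
      simpa using this
    have h4 := (h.an _ hm).differentiableAt.hasFDerivAt.comp_hasDerivAt t h3
    have h5 : fderiv ℂ γ (Function.update w 0 t) (Pi.single 0 1) = 0 := h2 hm
    rw [h5] at h4
    exact h4
  have hconst := isOpen_ball.is_const_of_deriv_eq_zero (convex_ball (0 : ℂ) r).isPreconnected
    (fun t ht => (hder t ht).differentiableAt.differentiableWithinAt)
    (fun t ht => (hder t ht).deriv) (x := w 0) (y := 0)
    (by simpa using H884.norm_coord_lt hb hwb) (mem_ball_self hr)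
  simp only [Function.update_eq_self] at hconst
  have hm0 : Function.update w 0 0 ∈ ball b r := H884.update_mem_ball hb hwb (by simpa using hr)
  have h6 := (h.exc _ hm0).1 (by simp)
  rw [← hconst] at h6
  exact hw0 ((h.exc w hwb).2 h6)

/-- places meet the complement of thin sets -/
theorem IsPl.exists_notMem (h : IsPl σ b r γ) (hb : b 0 = 0) {X : CSp} {S T : Set X.pt}
    {ψ : Cm 4 → X.pt} {D : Set (Cm 4)} (hch : SChart X S ψ D) (hT : DimLe X 2 T)
    {N : Set (Cm 3)} (hN : IsOpen N) (hNb : N ⊆ ball b r) (hND : ∀ w ∈ N, γ w ∈ D)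
    (hne : N.Nonempty) : ∃ w ∈ N, ψ (γ w) ∉ T := by
  obtain ⟨w, hw, hinj⟩ := h.exists_inj hb hN hNb hne
  obtain ⟨q, hq, hq'⟩ := exists_notMem_of_cv (d := 2) (by norm_num) (h.an w (hNb hw)) hinj
    (hch.cv hT) (hN.mem_nhds hw)
  exact ⟨q, hq, fun hcon => hq' ⟨hND q hq, hcon⟩⟩

section
open Vale.Agent.P277.T3

variable {Y H : Type} [TopologicalSpace Y] [ChartedSpace (Cm 4) Y] [TopologicalSpace H]
  [CompactSpace H] [ChartedSpace (Cm 3) H] {ι : H → Y}

/-- the image of a compact threefold contains no open set -/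
theorem not_subset_range (hι : IsSub ι) {W : Set Y} (hW : IsOpen W) (hne : W.Nonempty) :
    ¬ W ⊆ range ι := by
  intro hcon
  obtain ⟨y, hy⟩ := hne
  set e' := chartAt (Cm 4) y with he'
  have hye : y ∈ e'.source := mem_chart_source _ y
  -- a finite cover of `H` by charts
  obtain ⟨t, ht⟩ := isCompact_univ.elim_finite_subcover
    (fun x : H => (chartAt (Cm 3) x).source) (fun x => (chartAt (Cm 3) x).open_source)
    fun x _ => mem_iUnion.2 ⟨x, mem_chart_source _ x⟩
  have h1 : Cv 3 (e' '' (e'.source ∩ W)) := by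
    refine cv_of_family (κ := t)
      (fun x => (chartAt (Cm 3) x.1).target ∩
        (chartAt (Cm 3) x.1).symm ⁻¹' (ι ⁻¹' e'.source))
      (fun x z => e' (ι ((chartAt (Cm 3) x.1).symm z))) ?_ ?_ ?_
    · intro x
      exact (chartAt (Cm 3) x.1).isOpen_inter_preimage_symm
        (e'.open_source.preimage hι.cont)
    · rintro x p ⟨hp, hp'⟩
      have h2 := (hι.holo ((chartAt (Cm 3) x.1).symm p) (chartAt (Cm 3) x.1) e'
        ⟨chart_mem_atlas _ _, (chartAt (Cm 3) x.1).map_target hp⟩ ⟨chart_mem_atlas _ _, hp'⟩).1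
      rwa [(chartAt (Cm 3) x.1).right_inv hp] at h2
    · rintro _ ⟨y', ⟨hy1, hy2⟩, rfl⟩
      obtain ⟨x', rfl⟩ := hcon hy2
      obtain ⟨x, hx, hxx⟩ := mem_iUnion₂.1 (ht (mem_univ x'))
      refine mem_iUnion.2 ⟨⟨x, hx⟩, chartAt (Cm 3) x x', ⟨(chartAt (Cm 3) x).map_source hxx, ?_⟩, ?_⟩
      · show ι ((chartAt (Cm 3) x).symm (chartAt (Cm 3) x x')) ∈ e'.source
        rw [(chartAt (Cm 3) x).left_inv hxx]
        exact hy1
      · show e' (ι ((chartAt (Cm 3) x).symm (chartAt (Cm 3) x x'))) = _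
        rw [(chartAt (Cm 3) x).left_inv hxx]
  have h2 : e' '' (e'.source ∩ W) ∈ 𝓝 (e' y) :=
    (e'.isOpen_image_of_subset_source (e'.open_source.inter hW) inter_subset_left).mem_nhds
      ⟨y, ⟨hye, hy⟩, rfl⟩
  exact not_cv_nhds (by simp) h2 h1

end

end Vale.Agent.P277.H60.X
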