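import Vale.Agent.P277.H60.X.Good

/-!
# P277, T3, EX: existence of good points
-/

open scoped Manifold ContDiff Topology
open Vale.Agent.P272.K Vale.Agent.P285.H281.FD Set Filter Metric

set_option linter.unusedSectionVars false

noncomputable section

namespace Vale.Agent.P277.H60.X

open Vale.Agent.P277 Vale.Agent.P277.H762 Vale.Agent.P277.T3

theorem IsPl.at_zx {σ : Cm 4 → ℂ} {b : Cm 3} {r : ℝ} {γ : Cm 3 → Cm 4} (h : IsPl σ b r γ)
    {p : Cm 2} (hp : zx p ∈ ball b r) : γ (zx p) = zz p := by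
  have h1 := (h.exc _ hp).1 (zx_zero p)
  ext i
  fin_cases i
  · exact h1.1
  · exact h1.2
  · exact h.c2 _ hp
  · exact h.c3 _ hp

variable {X : CSp} {S : Set X.pt} {ψ : Cm 4 → X.pt} {D : Set (Cm 4)}
variable {Y H : Type} [TopologicalSpace Y] [ChartedSpace (Cm 4) Y] [TopologicalSpace H]
  [ChartedSpace (Cm 3) H]
variable {B : Set X.pt} {O : Set Y} {v : Y → X.pt} {ι : H → Y} {σ : Cm 4 → ℂ}

/-- `v ∘ ι` in charts -/
theorem vi_an (hι : IsSub ι) (hv : IsOpenEmb X O v) (hch : SChart X S ψ D) {x : H} {e : Chart 3 H}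
    (he : At e x) (hxO : ι x ∈ O) (hxD : v (ι x) ∈ ψ '' D) :
    AnalyticAt ℂ (fun z => SChart.inv ψ D (v (ι (e.symm z)))) (e x) := by
  refine AnalyticAt.pi fun i => ?_
  set e' := chartAt (Cm 4) (ι x) with he'
  have hAt : At e' (ι x) := ⟨chart_mem_atlas _ _, mem_chart_source _ _⟩
  have h1 := (hv.hol (ι x) hxO e' hAt fun y => SChart.inv ψ D y i).1 (hch.inv_hol hxD i)
  have h2 := (hι.holo x e e' he hAt).1
  have h3 : AnalyticAt ℂ (fun z => SChart.inv ψ D (v (e'.symm (e' (ι (e.symm z))))) i) (e x) := by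
    refine AnalyticAt.fun_comp (g := fun z => SChart.inv ψ D (v (e'.symm z)) i) ?_ h2
    rw [e.left_inv he.2]
    exact h1
  refine h3.congr ?_
  have h4 : ContinuousAt (fun z => ι (e.symm z)) (e x) :=
    ContinuousAt.comp (g := ι) hι.cont.continuousAt (e.continuousAt_symm (e.map_source he.2))
  have h5 : ∀ᶠ z in 𝓝 (e x), ι (e.symm z) ∈ e'.source := by
    refine h4.eventually (e'.open_source.mem_nhds ?_)
    show ι (e.symm (e x)) ∈ e'.source
    rw [e.left_inv he.2]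
    exact hAt.2
  filter_upwards [h5] with z hz
  rw [e'.left_inv hz]

/-- lifts of places are generically open maps -/
theorem gen_of (hι : IsSub ι) (hv : IsOpenEmb X O v) (hdim : DimLe X 2 (v '' O)ᶜ)
    (hch : SChart X S ψ D) {b : Cm 3} {r : ℝ} {γ : Cm 3 → Cm 4} (hpl : IsPl σ b r γ) (hb : b 0 = 0)
    {q : Cm 3 → H} {N : Set (Cm 3)} (hN : IsOpen N) (hNb : N ⊆ ball b r)
    (hND : ∀ w ∈ N, γ w ∈ D) (hl : ∀ w ∈ N, LiftD O v ι (fun w => ψ (γ w)) q w)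
    (hne : N.Nonempty) : (interior (q '' N)).Nonempty := by
  have hvO : IsOpen (v '' O) := hv.isOpenMap O Subset.rfl hv.isOpen
  set N' : Set (Cm 3) := {w | w ∈ N ∧ ψ (γ w) ∈ v '' O} with hN'
  have hN'o : IsOpen N' := by
    rw [isOpen_iff_mem_nhds]
    rintro w ⟨hw, hw'⟩
    have h1 : ContinuousAt (fun w => ψ (γ w)) w :=
      ContinuousAt.comp (g := ψ) (hch.cont _ (hND w hw)) (hpl.an w (hNb hw)).continuousAt
    exact inter_mem (hN.mem_nhds hw) (h1.preimage_mem_nhds (hvO.mem_nhds hw'))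
  have hN'ne : N'.Nonempty := by
    obtain ⟨w, hw, hw'⟩ := hpl.exists_notMem hb hch hdim hN hNb hND hne
    exact ⟨w, hw, by simpa using hw'⟩
  obtain ⟨w, hw, hinj⟩ := hpl.exists_inj hb hN'o (fun z hz => hNb hz.1) hN'ne
  have hlw := hl w hw.1
  obtain ⟨hqO, hqv⟩ := hlw.eq hw.2
  set e := chartAt (Cm 3) (q w) with he'
  have he : At e (q w) := ⟨chart_mem_atlas _ _, mem_chart_source _ _⟩
  have hF : AnalyticAt ℂ (fun w => e (q w)) w := hlw.an e he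
  have hP := vi_an hι hv hch he hqO (by rw [hqv]; exact mem_image_of_mem _ (hND w hw.1))
  have hsrc : ∀ᶠ w' in 𝓝 w, q w' ∈ e.source := hlw.cont.eventually (e.open_source.mem_nhds he.2)
  have hPF : (fun w' => SChart.inv ψ D (v (ι (e.symm (e (q w')))))) =ᶠ[𝓝 w] γ := by
    filter_upwards [hN'o.mem_nhds hw, hsrc] with w' h1 h2
    rw [e.left_inv h2, ((hl w' h1.1).eq h1.2).2, hch.inv_apply (hND w' h1.1)]
  have hFinj : Function.Injective (fderiv ℂ (fun w => e (q w)) w) := by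
    have h1 := hPF.fderiv_eq (𝕜 := ℂ)
    have h2 : fderiv ℂ (fun w' => SChart.inv ψ D (v (ι (e.symm (e (q w')))))) w =
        (fderiv ℂ (fun z => SChart.inv ψ D (v (ι (e.symm z)))) (e (q w))).comp
          (fderiv ℂ (fun w => e (q w)) w) :=
      fderiv_comp (g := fun z => SChart.inv ψ D (v (ι (e.symm z)))) w hP.differentiableAt
        hF.differentiableAt
    intro a a' haa
    apply hinj
    rw [← h1, h2]
    show (fderiv ℂ (fun z => SChart.inv ψ D (v (ι (e.symm z)))) (e (q w)))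
      (fderiv ℂ (fun w => e (q w)) w a) = (fderiv ℂ (fun z => SChart.inv ψ D (v (ι (e.symm z))))
        (e (q w))) (fderiv ℂ (fun w => e (q w)) w a')
    rw [haa]
  obtain ⟨E, hE, hwE, -, -⟩ := H73.exists_localInv hF hFinj
  obtain ⟨U, hU, hUo, hwU⟩ := _root_.eventually_nhds_iff.1 ((hN.eventually_mem hw.1).and hsrc)
  have h3 : IsOpen (E '' (E.source ∩ U)) :=
    E.isOpen_image_of_subset_source (E.open_source.inter hUo) inter_subset_left
  have h4 : E '' (E.source ∩ U) ⊆ e.target := by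
    rintro _ ⟨w', hw', rfl⟩
    rw [hE]
    exact e.map_source (hU w' hw'.2).2
  have h5 : IsOpen (e.symm '' (E '' (E.source ∩ U))) :=
    e.symm.isOpen_image_of_subset_source h3 h4
  refine ⟨q w, interior_maximal ?_ h5 ⟨_, ⟨w, ⟨hwE, hwU⟩, rfl⟩, ?_⟩⟩
  · rintro _ ⟨_, ⟨w', hw', rfl⟩, rfl⟩
    refine ⟨w', (hU w' hw'.2).1, ?_⟩
    rw [hE]
    exact (e.left_inv (hU w' hw'.2).2).symm
  · rw [hE]
    exact e.left_inv he.2

theorem good_of (hι : IsSub ι) (hv : IsOpenEmb X O v) (hdim : DimLe X 2 (v '' O)ᶜ)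
    (hch : SChart X S ψ D) (hσ : ∀ z ∈ D, (ψ z ∈ B ↔ σ z = 0))
    {z : Cm 4} (hz : z ∈ D) (h0 : z 0 = 0) (h1 : z 1 = 0) {d : ℕ} {r : ℝ}
    {γ : Fin d → Cm 3 → Cm 4} (hr : 0 < r) (hγ : ∀ k, IsPl σ (zx (lst z)) r (γ k))
    (hcov : ∀ x' ∈ ball z r, x' 0 = 0 → x' 1 = 0 → ∀ ε > 0, ∀ᶠ y in 𝓝 x', σ y = 0 →
      ¬ (y 0 = 0 ∧ y 1 = 0) → ∃ k, ∃ w ∈ ball (zx (lst x')) ε, γ k w = y)
    (hl : ∀ k, ∃ ρ > 0, ∃ q : Cm 3 → H, ∀ w' ∈ ball (zx (lst z)) ρ,
      LiftD O v ι (fun w => ψ (γ k w)) q w') :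
    ∃ (r' : ℝ) (q : Fin d → Cm 3 → H),
      Good S B O v ι d (fun p => ψ (zz p)) (lst z) r' (fun k w => ψ (γ k w)) q := by
  choose ρ hρ q hq using hl
  set b : Cm 3 := zx (lst z) with hb
  have hγb : ∀ k, γ k b = z := by
    intro k
    rw [hb, (hγ k).at_zx (mem_ball_self hr), zz_lst h0 h1]
  have e1 : ∀ᶠ w in 𝓝 b, w ∈ ball b r ∧ ∀ k, γ k w ∈ D ∧ w ∈ ball b (ρ k) := by
    refine (isOpen_ball.eventually_mem (mem_ball_self hr)).and (eventually_all.2 fun k => ?_)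
    refine Eventually.and ?_ (isOpen_ball.eventually_mem (mem_ball_self (hρ k)))
    refine ((hγ k).an b (mem_ball_self hr)).continuousAt.eventually (hch.isOpen.mem_nhds ?_)
    rw [hγb]; exact hz
  have e2 : ∀ᶠ p in 𝓝 (lst z), zz p ∈ D ∧ zz p ∈ ball z r := by
    have hc : ContinuousAt zz (lst z) := (zz_an _).continuousAt
    refine hc.eventually (inter_mem (hch.isOpen.mem_nhds ?_) (isOpen_ball.mem_nhds ?_))
    · rw [zz_lst h0 h1]; exact hz
    · rw [zz_lst h0 h1]; exact mem_ball_self hr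
  obtain ⟨r₁, hr₁, h3⟩ := Metric.eventually_nhds_iff_ball.1 e1
  obtain ⟨r₂, hr₂, h4⟩ := Metric.eventually_nhds_iff_ball.1 e2
  set r' := min r₁ r₂ with hr'
  have hr'0 : 0 < r' := lt_min hr₁ hr₂
  have hb3 : ∀ w ∈ ball b r', w ∈ ball b r ∧ ∀ k, γ k w ∈ D ∧ w ∈ ball b (ρ k) := fun w hw =>
    h3 w (ball_subset_ball (min_le_left _ _) hw)
  have hb4 : ∀ p ∈ ball (lst z) r', zz p ∈ D ∧ zz p ∈ ball z r := fun p hp =>
    h4 p (ball_subset_ball (min_le_right _ _) hp)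
  have hzx : ∀ p ∈ ball (lst z) r', zx p ∈ ball b r' := fun p hp => by
    rw [mem_ball, hb, dist_zx]; exact hp
  have hdense : ∀ k, ∀ N ⊆ ball b r', IsOpen N → N.Nonempty → ∃ w ∈ N, ψ (γ k w) ∈ v '' O := by
    intro k N hN hNo hne
    obtain ⟨w, hw, hw'⟩ := (hγ k).exists_notMem rfl hch hdim hNo (fun w hw => (hb3 w (hN hw)).1)
      (fun w hw => ((hb3 w (hN hw)).2 k).1) hne
    exact ⟨w, hw, by simpa using hw'⟩
  refine ⟨r', q, hr'0, fun p hp => ContinuousAt.comp (g := ψ) (hch.cont _ (hb4 p hp).1)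
    (zz_an p).continuousAt, ?_, ?_, ?_, ?_, ?_, ?_, ?_, hdense, ?_, ?_⟩
  · intro U hU hUo
    refine ⟨ψ '' (D ∩ lst ⁻¹' U), hch.openMap _ inter_subset_left
      (hch.isOpen.inter (hUo.preimage (continuous_of_an lst_an))), ?_⟩
    ext y
    constructor
    · rintro ⟨⟨w, ⟨hw, hwU⟩, rfl⟩, hyS⟩
      obtain ⟨h5, h6⟩ := (hch.mem w hw).1 hyS
      exact ⟨lst w, hwU, by show ψ (zz (lst w)) = ψ w; rw [zz_lst h5 h6]⟩
    · rintro ⟨p, hp, rfl⟩
      have h5 := (hb4 p (hU hp)).1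
      refine ⟨⟨zz p, ⟨h5, ?_⟩, rfl⟩, (hch.mem _ h5).2 ⟨rfl, rfl⟩⟩
      show lst (zz p) ∈ U
      rw [lst_zz]; exact hp
  · intro T hT
    have h5 : Cv 1 (zz '' T) := Cv.image hT isOpen_univ (subset_univ _) fun p _ => zz_an p
    refine (hch.dimLe h5).mono ?_
    rintro _ ⟨p, ⟨hp, hpT⟩, rfl⟩
    exact ⟨zz p, ⟨(hb4 p hp).1, mem_image_of_mem _ hpT⟩, rfl⟩
  · intro U hU hUo hne hcon
    obtain ⟨p, hp⟩ := hne
    have h5 : Cv 1 (lst '' {w | w ∈ D ∧ ψ w ∈ (fun p => ψ (zz p)) '' U}) :=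
      Cv.image (hch.cv hcon) isOpen_univ (subset_univ _) fun w _ => lst_an w
    refine not_cv_nhds (x := p) (by simp) ?_ h5
    filter_upwards [hUo.mem_nhds hp] with p' hp'
    exact ⟨zz p', ⟨(hb4 p' (hU hp')).1, p', hp', rfl⟩, lst_zz p'⟩
  · intro p hp
    exact hch.surf (hb4 p hp).1 rfl rfl
  · intro k w hw
    exact ContinuousAt.comp (g := ψ) (hch.cont _ ((hb3 w hw).2 k).1)
      ((hγ k).an w (hb3 w hw).1).continuousAt
  · intro k p hp
    show ψ (γ k (zx p)) = ψ (zz p)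
    rw [(hγ k).at_zx (hb3 _ (hzx p hp)).1]
  · intro k w hw
    exact hq k w ((hb3 w hw).2 k).2
  · intro k N hN hNo hne
    exact gen_of hι hv hdim hch (hγ k) rfl hNo (fun w hw => (hb3 w (hN hw)).1)
      (fun w hw => ((hb3 w (hN hw)).2 k).1) (fun w hw => hq k w ((hb3 w (hN hw)).2 k).2) hne
  · intro p hp ε hε
    have h5 := hb4 p hp
    have h6 := hcov (zz p) h5.2 rfl rfl ε hε
    show ∀ᶠ y in 𝓝 (ψ (zz p)), _
    rw [← hch.map_nhds h5.1, Filter.eventually_map]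
    filter_upwards [h6, hch.isOpen.mem_nhds h5.1] with w h7 h8 hB hS
    obtain ⟨k, w', hw', hkw⟩ := h7 ((hσ w h8).1 hB) (fun h => hS ((hch.mem w h8).2 h))
    refine ⟨k, w', ?_, ?_⟩
    · rw [lst_zz] at hw'; exact hw'
    · show ψ (γ k w') = ψ w
      rw [hkw]

end Vale.Agent.P277.H60.X
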