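import Vale.Agent.P277.H60.X.Gam

/-!
# P277, T3, EX: slices of thin sets, lifts to `H`
-/

open scoped Manifold ContDiff Topology
open Vale.Agent.P272.K Vale.Agent.P285.H281.FD Set Filter Metric

noncomputable section

namespace Vale.Agent.P277.H60.X

open Vale.Agent.P277 Vale.Agent.P277.H762 Vale.Agent.P277.T3

/-- add a dummy coordinate -/
def ex (c : ℂ) (w : Cm 3) : Cm 4 := ![w 0, w 1, w 2, c]

/-- forget the dummy coordinate -/
def pr (z : Cm 4) : Cm 3 := ![z 0, z 1, z 2]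

theorem pr_ex (c : ℂ) (w : Cm 3) : pr (ex c w) = w := by
  ext i; fin_cases i <;> rfl

theorem ex_an (c : ℂ) (w : Cm 3) : AnalyticAt ℂ (ex c) w := by
  refine AnalyticAt.pi fun k => ?_
  fin_cases k
  · exact (ContinuousLinearMap.proj (R := ℂ) (φ := fun _ : Fin 3 => ℂ) 0).analyticAt w
  · exact (ContinuousLinearMap.proj (R := ℂ) (φ := fun _ : Fin 3 => ℂ) 1).analyticAt w
  · exact (ContinuousLinearMap.proj (R := ℂ) (φ := fun _ : Fin 3 => ℂ) 2).analyticAt w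
  · exact analyticAt_const

theorem pr_an (z : Cm 4) : AnalyticAt ℂ pr z := by
  refine AnalyticAt.pi fun k => ?_
  fin_cases k
  · exact (ContinuousLinearMap.proj (R := ℂ) (φ := fun _ : Fin 4 => ℂ) 0).analyticAt z
  · exact (ContinuousLinearMap.proj (R := ℂ) (φ := fun _ : Fin 4 => ℂ) 1).analyticAt z
  · exact (ContinuousLinearMap.proj (R := ℂ) (φ := fun _ : Fin 4 => ℂ) 2).analyticAt z

theorem cv_balls {V : Type*} [NormedAddCommGroup V] [NormedSpace ℂ V] {k : ℕ} {S : Set V}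
    (h : Cv k S) : ∃ (κ : Type) (_ : Countable κ) (c : κ → Cm k) (ρ : κ → ℝ) (g : κ → Cm k → V),
      (∀ i, 0 < ρ i) ∧ (∀ i, ∀ p ∈ ball (c i) (ρ i), AnalyticAt ℂ (g i) p) ∧
      S ⊆ ⋃ i, g i '' ball (c i) (ρ i) := by
  obtain ⟨Ω, g, h1, h2, h3⟩ := h
  have key : ∀ (l : ℕ) (p : Cm k), p ∈ Ω l → ∃ r : ℝ, 0 < r ∧ ball p r ⊆ Ω l := by
    intro l p hp
    obtain ⟨r, hr, hr'⟩ := Metric.isOpen_iff.1 (h1 l) p hp
    exact ⟨r, hr, hr'⟩
  choose! r hr hrΩ using key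
  have key2 : ∀ l, ∃ t ⊆ Ω l, t.Countable ∧ Ω l ⊆ ⋃ p ∈ t, ball p (r l p) := by
    intro l
    refine TopologicalSpace.countable_cover_nhdsWithin fun p hp => mem_nhdsWithin_of_mem_nhds ?_
    exact ball_mem_nhds p (hr l p hp)
  choose t ht htc htS using key2
  have : ∀ l, Countable (t l) := fun l => (htc l).to_subtype
  refine ⟨Σ l, t l, inferInstance, fun q => q.2, fun q => r q.1 q.2, fun q => g q.1,
    fun q => hr _ _ (ht _ q.2.2), fun q p hp => h2 _ p (hrΩ _ _ (ht _ q.2.2) hp), fun x hx => ?_⟩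
  obtain ⟨l, p, hp, rfl⟩ := mem_iUnion.1 (h3 hx)
  obtain ⟨q, hq, hq'⟩ := mem_iUnion₂.1 (htS l hp)
  exact mem_iUnion.2 ⟨⟨l, q, hq⟩, p, hq', rfl⟩

/-- generic slices of two-dimensional sets are one-dimensional -/
theorem exists_slice (hB1 : StB1) {T : Set (Cm 4)} (hT : Cv 2 T) :
    ∃ c : ℂ, Cv 1 {w : Cm 3 | ex c w ∈ T} := by
  obtain ⟨κ, hκ, c, ρ, g, hρ, hg, hTg⟩ := cv_balls hT
  have hC : ∀ i, {a : ℂ | ∀ p ∈ ball (c i) (ρ i), g i p 3 = a}.Countable := by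
    intro i
    refine Set.Subsingleton.countable fun a ha a' ha' => ?_
    have hm := mem_ball_self (x := c i) (hρ i)
    rw [← ha _ hm, ← ha' _ hm]
  obtain ⟨a, ha⟩ := ((Set.countable_iUnion hC).dense_compl ℝ).nonempty
  have ha' : ∀ i, ∃ p ∈ ball (c i) (ρ i), g i p 3 ≠ a := by
    intro i
    by_contra hcon
    push Not at hcon
    exact ha (mem_iUnion.2 ⟨i, hcon⟩)
  have key : ∀ i, ∃ (W : ℕ → Set (Cm 1)) (G : ℕ → Cm 1 → Cm 2), (∀ l, IsOpen (W l)) ∧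
      (∀ l, ∀ p ∈ W l, AnalyticAt ℂ (G l) p ∧ G l p ∈ ball (c i) (ρ i)) ∧
      {z | z ∈ ball (c i) (ρ i) ∧ g i z 3 - a = 0} ⊆ ⋃ l, G l '' W l := by
    intro i
    have han : ∀ z ∈ ball (c i) (ρ i), AnalyticAt ℂ (fun z => g i z 3 - a) z := fun z hz =>
      (((ContinuousLinearMap.proj (R := ℂ) (φ := fun _ : Fin 4 => ℂ) 3).analyticAt _).comp
        (hg i z hz)).sub analyticAt_const
    refine hB1 1 _ _ isOpen_ball han fun z hz hcon => ?_
    obtain ⟨p, hp, hpa⟩ := ha' i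
    have hF : AnalyticOnNhd ℂ (fun z => g i z 3 - a) (ball (c i) (ρ i)) := han
    have h1 := hF.eqOn_of_preconnected_of_eventuallyEq (g := 0)
      (fun _ _ => analyticAt_const) (convex_ball _ _).isPreconnected hz hcon hp
    exact hpa (sub_eq_zero.1 h1)
  choose W G hW hG hcov using key
  refine ⟨a, cv_of_family (κ := κ × ℕ) (fun q => W q.1 q.2)
    (fun q p => pr (g q.1 (G q.1 q.2 p))) (fun q => hW _ _) (fun q p hp => ?_) fun w hw => ?_⟩
  · exact AnalyticAt.fun_comp (pr_an _)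
      (AnalyticAt.fun_comp (hg q.1 _ (hG q.1 q.2 p hp).2) (hG q.1 q.2 p hp).1)
  · obtain ⟨i, p, hp, hpw⟩ := mem_iUnion.1 (hTg hw)
    have h1 : g i p 3 - a = 0 := by rw [hpw]; exact sub_self a
    obtain ⟨l, q, hq, hqp⟩ := mem_iUnion.1 (hcov i ⟨hp, h1⟩)
    refine mem_iUnion.2 ⟨(i, l), q, hq, ?_⟩
    show pr (g i (G i l q)) = w
    rw [hqp, hpw, pr_ex]

variable {Y H : Type} [TopologicalSpace Y] [ChartedSpace (Cm 4) Y] [TopologicalSpace H]
  [ChartedSpace (Cm 3) H] {ι : H → Y} {X : CSp} {O : Set Y} {v : Y → X.pt}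

/-- `q` is near `w` a holomorphic lift to `H` of the map `Γ : ℂ³ → X` -/
structure LiftD (O : Set Y) (v : Y → X.pt) (ι : H → Y) (Γ : Cm 3 → X.pt) (q : Cm 3 → H)
    (w : Cm 3) : Prop where
  cont : ContinuousAt q w
  an : ∀ e : Chart 3 H, At e (q w) → AnalyticAt ℂ (fun w => e (q w)) w
  eq : Γ w ∈ v '' O → ι (q w) ∈ O ∧ v (ι (q w)) = Γ w

theorem liftH_of [T2Space Y] [CompactSpace H] [Nonempty H] [IsManifold 𝓘(ℂ, Cm 4) ω Y]
    [IsManifold 𝓘(ℂ, Cm 3) ω H] (hι : IsSub ι) {B : Set X.pt}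
    (hB : ∀ y ∈ O, v y ∈ B ↔ y ∈ range ι) {Γ : Cm 3 → X.pt} {w : Cm 3} {c : ℂ}
    (h : LiftAt O v (fun z => Γ (pr z)) (ex c w)) {N : Set (Cm 3)} (hN : IsOpen N) (hwN : w ∈ N)
    (hd : ∀ N' ⊆ N, IsOpen N' → N'.Nonempty → ∃ w' ∈ N', Γ w' ∈ v '' O)
    (hΓ : ∀ w' ∈ N, Γ w' ∈ B) :
    ∃ ρ > 0, ∃ q : Cm 3 → H, ∀ w' ∈ ball w ρ, LiftD O v ι Γ q w' := by
  classical
  obtain ⟨γ₀, hγc, hγa, hγ⟩ := h
  set e' := chartAt (Cm 4) (γ₀ (ex c w)) with he'
  have hAt : At e' (γ₀ (ex c w)) := ⟨chart_mem_atlas _ _, mem_chart_source _ _⟩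
  set γ₁ : Cm 3 → Y := fun w' => γ₀ (ex c w') with hγ₁
  have hex : ContinuousAt (ex c) w := (ex_an c w).continuousAt
  have hc1 : ContinuousAt γ₁ w := ContinuousAt.comp (g := γ₀) hγc hex
  have ha1 : AnalyticAt ℂ (fun w' => e' (γ₁ w')) w :=
    AnalyticAt.fun_comp (g := fun z => e' (γ₀ z)) (hγa e' hAt) (ex_an c w)
  have hev : ∀ᶠ w' in 𝓝 w, Γ w' ∈ v '' O → γ₁ w' ∈ O ∧ v (γ₁ w') = Γ w' := by
    have := hex.eventually hγ
    filter_upwards [this] with w' hw' hΓ'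
    rw [pr_ex] at hw'
    exact hw' hΓ'
  obtain ⟨U, hU, hUo, hwU⟩ := _root_.eventually_nhds_iff.1 ((hev.and (ha1.eventually_analyticAt)).and
    ((hc1.eventually (e'.open_source.mem_nhds hAt.2)).and (hN.eventually_mem hwN)))
  -- continuity of `γ₁` on `U`
  have hc2 : ∀ w' ∈ U, ContinuousAt γ₁ w' := by
    intro w' hw'
    have h1 : ContinuousAt (fun w'' => e'.symm (e' (γ₁ w''))) w' := by
      refine ContinuousAt.comp (g := e'.symm) ?_ (hU w' hw').1.2.continuousAt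
      exact e'.continuousAt_symm (e'.map_source (hU w' hw').2.1)
    refine h1.congr ?_
    filter_upwards [hUo.mem_nhds hw'] with w'' hw''
    exact e'.left_inv (hU w'' hw'').2.1
  have hcl : IsClosed (range ι) := (isCompact_range hι.cont).isClosed
  have hr : ∀ w' ∈ U, γ₁ w' ∈ range ι := by
    intro w' hw'
    by_contra hcon
    have h1 : IsOpen (U ∩ γ₁ ⁻¹' (range ι)ᶜ) := by
      rw [isOpen_iff_mem_nhds]
      rintro w'' ⟨h2, h3⟩
      exact inter_mem (hUo.mem_nhds h2) ((hc2 w'' h2).preimage_mem_nhds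
        (hcl.isOpen_compl.mem_nhds h3))
    obtain ⟨w'', hw'', hΓw⟩ := hd _ (fun z hz => (hU z hz.1).2.2) h1 ⟨w', hw', hcon⟩
    obtain ⟨h4, h5⟩ := (hU w'' hw''.1).1.1 hΓw
    refine hw''.2 ((hB _ h4).1 ?_)
    rw [h5]
    exact hΓ _ (hU w'' hw''.1).2.2
  set q : Cm 3 → H := fun w' => Function.invFun ι (γ₁ w') with hq
  have hιq : ∀ w' ∈ U, ι (q w') = γ₁ w' := fun w' hw' => Function.invFun_eq (hr w' hw')
  have hemb : Topology.IsClosedEmbedding ι := hι.cont.isClosedEmbedding hι.inj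
  have hqc : ∀ w' ∈ U, ContinuousAt q w' := by
    intro w' hw'
    rw [hemb.isInducing.continuousAt_iff]
    refine (hc2 w' hw').congr ?_
    filter_upwards [hUo.mem_nhds hw'] with w'' hw''
    exact (hιq w'' hw'').symm
  obtain ⟨ρ, hρ, hρU⟩ := Metric.isOpen_iff.1 hUo w hwU
  refine ⟨ρ, hρ, q, fun w' hw' => ?_⟩
  have hw'U := hρU hw'
  refine ⟨hqc w' hw'U, fun e he => ?_, fun hΓw => ?_⟩
  · have hye : At e' (ι (q w')) := ⟨hAt.1, by rw [hιq w' hw'U]; exact (hU w' hw'U).2.1⟩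
    obtain ⟨h1, h2⟩ := hι.holo (q w') e e' he hye
    obtain ⟨lam, hlam, hl⟩ := exists_leftInv h1 h2
    have h3 : (fun w => e (q w)) =ᶠ[𝓝 w'] fun w => lam (e' (γ₁ w)) := by
      have h4 : ContinuousAt (fun w => e (q w)) w' :=
        ContinuousAt.comp (g := e) (e.continuousAt he.2) (hqc w' hw'U)
      filter_upwards [hUo.mem_nhds hw'U, h4.eventually hl,
        (hqc w' hw'U).eventually (e.open_source.mem_nhds he.2)] with w'' h5 h6 h7
      rw [← hιq w'' h5, ← h6, e.left_inv h7]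
    refine AnalyticAt.congr ?_ h3.symm
    refine AnalyticAt.fun_comp ?_ (hU w' hw'U).1.2
    have h8 : e' (γ₁ w') = e' (ι (e.symm (e (q w')))) := by
      rw [e.left_inv he.2, hιq w' hw'U]
    rw [h8]
    exact hlam
  · have := (hU w' hw'U).1.1 hΓw
    rw [hιq w' hw'U]
    exact this

end Vale.Agent.P277.H60.X
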