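import Vale.Agent.P277.H60.X.Thin

/-!
# P277, T3, EX: orders along the exceptional surfaces, dichotomy
-/

open scoped Manifold ContDiff Topology
open Vale.Agent.P272.K Vale.Agent.P285.H281.FD Set Filter Metric

set_option linter.unusedSectionVars false

noncomputable section

namespace Vale.Agent.P277.H60.X

open Vale.Agent.P277 Vale.Agent.P277.H762 Vale.Agent.P277.T3 Vale.Agent.P277.PH

variable {X : CSp} {S : Set X.pt}
variable {Y H : Type} [TopologicalSpace Y] [ChartedSpace (Cm 4) Y] [TopologicalSpace H]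
  [ChartedSpace (Cm 3) H]
variable {B : Set X.pt} {O : Set Y} {v : Y → X.pt} {ι : H → Y}

theorem holF_cont {n : ℕ} {M : Type} [TopologicalSpace M] [ChartedSpace (Cm n) M] {h : M → ℂ} {y : M}
    (hh : HolF n h y) : ContinuousAt h y := by
  set e := chartAt (Cm n) y with he
  have hye : y ∈ e.source := mem_chart_source _ y
  have h1 := (hh e ⟨chart_mem_atlas _ _, hye⟩).continuousAt
  have h2 : ContinuousAt (fun y' => h (e.symm (e y'))) y :=
    ContinuousAt.comp (g := fun z => h (e.symm z)) h1 (e.continuousAt hye)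
  refine h2.congr ?_
  filter_upwards [e.open_source.mem_nhds hye] with y' hy'
  rw [e.left_inv hy']

theorem logAt_open {D : Set H} {w : H → ℝ} (h : ∀ y, LogAt 3 D w y) : IsOpen Dᶜ := by
  rw [isOpen_iff_mem_nhds]
  intro y hy
  obtain ⟨f, C, hf, -, hD⟩ := h y
  have h1 : f y ≠ 0 := fun h0 => hy (hD.self_of_nhds.1.2 h0)
  filter_upwards [(holF_cont hf).eventually_ne h1, hD] with y' h2 h3 h4
  exact h2 (h3.1.1 h4)

theorem logAt_dense {D : Set H} {w : H → ℝ} (h : ∀ y, LogAt 3 D w y) : Dense Dᶜ := by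
  intro y
  obtain ⟨f, C, hf, hne, hD⟩ := h y
  rw [mem_closure_iff_frequently]
  exact (hne.and_eventually hD).mono fun y' h' h1 => h'.1 (h'.2.1.1 h1)

variable {d : ℕ} {g : Cm 2 → X.pt} {p₀ : Cm 2} {r : ℝ} {Γ : Fin d → Cm 3 → X.pt}
  {q : Fin d → Cm 3 → H}

/-- the order of a function along `{w 0 = 0}` -/
theorem ord_local (hG : Good S B O v ι d g p₀ r Γ q) (k : Fin d) {D : Set H} {u : H → ℝ}
    (h : ∀ y, LogAt 3 D u y) :
    ∃ (ρ : ℝ) (m : ℕ) (F : Cm 3 → ℂ) (C : ℝ), 0 < ρ ∧ ρ ≤ r ∧ 0 ≤ C ∧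
      DifferentiableOn ℂ F (ball (zx p₀) ρ) ∧
      (∃ w ∈ ball (zx p₀) ρ, w 0 = 0 ∧ F w ≠ 0) ∧
      ∀ w ∈ ball (zx p₀) ρ, (q k w ∈ D ↔ w 0 ^ m * F w = 0) ∧
        (q k w ∉ D → |u (q k w) - Real.log ‖w 0 ^ m * F w‖| ≤ C) := by
  have hb : zx p₀ ∈ ball (zx p₀) r := mem_ball_self hG.pos
  have hl := hG.lift k _ hb
  obtain ⟨f, C, hf, -, hD⟩ := h (q k (zx p₀))
  set e := chartAt (Cm 3) (q k (zx p₀)) with he'
  have he : At e (q k (zx p₀)) := ⟨chart_mem_atlas _ _, mem_chart_source _ _⟩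
  have h1 : AnalyticAt ℂ (fun w => f (e.symm (e (q k w)))) (zx p₀) :=
    AnalyticAt.fun_comp (g := fun z => f (e.symm z)) (hf e he) (hl.an e he)
  have h2 : AnalyticAt ℂ (fun w => f (q k w)) (zx p₀) := by
    refine h1.congr ?_
    filter_upwards [hl.cont.eventually (e.open_source.mem_nhds he.2)] with w hw
    rw [e.left_inv hw]
  obtain ⟨ρ₁, hρ₁, h3⟩ := Metric.eventually_nhds_iff_ball.1
    (h2.eventually_analyticAt.and (hl.cont.eventually hD))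
  set ρ := min ρ₁ r with hρ
  have hρ0 : 0 < ρ := lt_min hρ₁ hG.pos
  have hs1 : ball (zx p₀) ρ ⊆ ball (zx p₀) ρ₁ := ball_subset_ball (min_le_left _ _)
  have hs2 : ball (zx p₀) ρ ⊆ ball (zx p₀) r := ball_subset_ball (min_le_right _ _)
  obtain ⟨w', hw', hne⟩ : ∃ w' ∈ ball (zx p₀) ρ, f (q k w') ≠ 0 := by
    have h4 := hG.gen k (ball (zx p₀) ρ) hs2 isOpen_ball ⟨_, mem_ball_self hρ0⟩
    obtain ⟨y, hy, hyD⟩ := (logAt_dense h).inter_open_nonempty _ isOpen_interior h4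
    obtain ⟨w', hw', rfl⟩ := interior_subset hy
    exact ⟨w', hw', fun h0 => hyD ((h3 w' (hs1 hw')).2.1.2 h0)⟩
  obtain ⟨m, G, hGd, hGm, ⟨⟩, w₁, hw₁, hw₁0, hGw⟩ := H884.exists_div (w₀ := zx p₀) (r := ρ)
    (zx_zero p₀) (ι := Unit) (fun _ w => f (q k w))
    (fun _ w hw => (h3 w (hs1 hw)).1.differentiableAt.differentiableWithinAt) (i₀ := ()) hw' hne
  refine ⟨ρ, m, G (), |C|, hρ0, min_le_right _ _, abs_nonneg _, hGd _, ⟨w₁, hw₁, hw₁0, hGw⟩,
    fun w hw => ?_⟩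
  obtain ⟨h5, h6⟩ := (h3 w (hs1 hw)).2
  have h7 : f (q k w) = w 0 ^ m * G () w := hGm () w hw
  rw [← h7]
  exact ⟨h5, fun hwD => (h6 hwD).trans (le_abs_self _)⟩

/-- the data of the orders of finitely many functions at a good point -/
structure OrdData {N : ℕ} (D : Fin N → Set H) (u : Fin N → H → ℝ) (p₀ : Cm 2) (r : ℝ)
    (q : Fin d → Cm 3 → H) (ρ : ℝ) (m : Fin d → Fin N → ℕ) (F : Fin d → Fin N → Cm 3 → ℂ)
    (C : Fin d → Fin N → ℝ) (Z : Set (Cm 2)) : Prop where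
  pos : 0 < ρ
  le : ρ ≤ r
  C0 : ∀ k j, 0 ≤ C k j
  diff : ∀ k j, DifferentiableOn ℂ (F k j) (ball (zx p₀) ρ)
  thin : Cv 1 Z
  ne : ∀ p ∈ ball p₀ ρ, p ∉ Z → ∀ k j, F k j (zx p) ≠ 0
  zero : ∀ k j, ∀ w ∈ ball (zx p₀) ρ, (q k w ∈ D j ↔ w 0 ^ m k j * F k j w = 0) ∧
    (q k w ∉ D j → |u j (q k w) - Real.log ‖w 0 ^ m k j * F k j w‖| ≤ C k j)

theorem exists_ordData (hB1 : StB1) (hG : Good S B O v ι d g p₀ r Γ q) {N : ℕ} {D : Fin N → Set H}
    {u : Fin N → H → ℝ} (h : ∀ j y, LogAt 3 (D j) (u j) y) :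
    ∃ ρ m F C Z, OrdData D u p₀ r q ρ m F C Z := by
  choose ρ m F C h1 h2 h3 h4 h5 h6 using fun k j => ord_local hG k (h j)
  obtain ⟨ρ₀, hρ₀, hρ₁, hρ₂⟩ : ∃ ρ₀ > 0, ρ₀ ≤ r ∧ ∀ k j, ρ₀ ≤ ρ k j := by
    have h7 : ∀ᶠ t : ℝ in 𝓝[>] 0, t ≤ r ∧ ∀ k j, t ≤ ρ k j := by
      refine Eventually.and ?_ (eventually_all.2 fun k => eventually_all.2 fun j => ?_)
      · filter_upwards [Ioo_mem_nhdsGT hG.pos] with t ht using ht.2.le
      · filter_upwards [Ioo_mem_nhdsGT (h1 k j)] with t ht using ht.2.le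
    obtain ⟨t, ht, ht'⟩ := (h7.and self_mem_nhdsWithin).exists
    exact ⟨t, ht', ht.1, ht.2⟩
  have hthin : ∀ k j, Cv 1 {p | p ∈ ball p₀ (ρ k j) ∧ F k j (zx p) = 0} := by
    intro k j
    have hzx : ∀ p ∈ ball p₀ (ρ k j), zx p ∈ ball (zx p₀) (ρ k j) := fun p hp => by
      rw [mem_ball, dist_zx]; exact hp
    have han : ∀ p ∈ ball p₀ (ρ k j), AnalyticAt ℂ (fun p => F k j (zx p)) p := fun p hp =>
      AnalyticAt.fun_comp (Vale.Agent.P268.analyticAt_of_differentiableOn isOpen_ball (h4 k j)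
        (hzx p hp)) (zx_an p)
    obtain ⟨W, G, hW, hGa, hcov⟩ := hB1 1 _ _ isOpen_ball han (by
      intro p hp hcon
      obtain ⟨w, hw, hw0, hFw⟩ := h5 k j
      have hF : AnalyticOnNhd ℂ (fun p => F k j (zx p)) (ball p₀ (ρ k j)) := han
      have hwz : zx ![w 1, w 2] = w := by
        ext i; fin_cases i
        · exact hw0.symm
        · rfl
        · rfl
      have hp1 : (![w 1, w 2] : Cm 2) ∈ ball p₀ (ρ k j) := by
        rw [mem_ball, ← dist_zx, hwz]; exact hw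
      have h8 := hF.eqOn_of_preconnected_of_eventuallyEq (g := 0)
        (fun _ _ => analyticAt_const) (convex_ball _ _).isPreconnected hp hcon hp1
      simp only [hwz] at h8
      exact hFw h8)
    exact ⟨W, G, hW, fun l p hp => (hGa l p hp).1, hcov⟩
  refine ⟨ρ₀, m, F, C, ⋃ k, ⋃ j, {p | p ∈ ball p₀ (ρ k j) ∧ F k j (zx p) = 0}, hρ₀, hρ₁, h3,
    fun k j => (h4 k j).mono (ball_subset_ball (hρ₂ k j)),
    cv_iUnion fun k => cv_iUnion fun j => hthin k j, fun p hp hpZ k j h0 => hpZ ?_,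
    fun k j w hw => h6 k j w (ball_subset_ball (hρ₂ k j) hw)⟩
  exact mem_iUnion₂.2 ⟨k, j, ball_subset_ball (hρ₂ k j) hp, h0⟩

section dich

variable {N : ℕ} {D : Fin N → Set H} {u : Fin N → H → ℝ} {ρ : ℝ} {m : Fin d → Fin N → ℕ}
  {F : Fin d → Fin N → Cm 3 → ℂ} {C : Fin d → Fin N → ℝ} {Z : Set (Cm 2)}

/-- the estimate of the combination along a place -/
theorem OrdData.est (hO : OrdData D u p₀ r q ρ m F C Z) (c : Fin N → ℝ) {k : Fin d} {w : Cm 3}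
    (hw : w ∈ ball (zx p₀) ρ) (hD : ∀ j, q k w ∉ D j) {M : Fin N → ℝ}
    (hM : ∀ j, |Real.log ‖F k j w‖| ≤ M j) :
    |(∑ j, c j * u j (q k w)) - (∑ j, c j * m k j) * Real.log ‖w 0‖| ≤
      ∑ j, |c j| * (C k j + M j) := by
  rw [Finset.sum_mul, ← Finset.sum_sub_distrib]
  refine (Finset.abs_sum_le_sum_abs _ _).trans (Finset.sum_le_sum fun j _ => ?_)
  obtain ⟨h1, h2⟩ := hO.zero k j w hw
  have h3 : w 0 ^ m k j * F k j w ≠ 0 := fun h0 => hD j (h1.2 h0)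
  have h4 := h2 (hD j)
  rw [norm_mul, norm_pow, Real.log_mul (by
    rw [← norm_pow]; exact norm_ne_zero_iff.2 (left_ne_zero_of_mul h3))
    (norm_ne_zero_iff.2 (right_ne_zero_of_mul h3)), Real.log_pow] at h4
  have h5 : c j * u j (q k w) - c j * m k j * Real.log ‖w 0‖ =
      c j * ((u j (q k w) - (m k j * Real.log ‖w 0‖ + Real.log ‖F k j w‖)) +
        Real.log ‖F k j w‖) := by ring
  rw [h5, abs_mul]
  gcongr
  exact (abs_add_le _ _).trans (add_le_add h4 (hM j))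

/-- if all the combinations of the orders vanish, the function is bounded -/
theorem bd_of (hG : Good S B O v ι d g p₀ r Γ q) (hv : IsOpenEmb X O v) (hι : IsSub ι)
    (hBH : ∀ y ∈ O, v y ∈ B ↔ y ∈ range ι) (hSO : S ⊆ (v '' O)ᶜ)
    (hO : OrdData D u p₀ r q ρ m F C Z) (c : Fin N → ℝ) (hc : ∀ k, ∑ j, c j * (m k j : ℝ) = 0)
    {p : Cm 2} (hp : p ∈ ball p₀ ρ) (hpZ : p ∉ Z) :
    BdAt (ι ⁻¹' O) (⋃ j, D j) (fun y => v (ι y)) (fun y => ∑ j, c j * u j y) (g p) := by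
  have hzxp : zx p ∈ ball (zx p₀) ρ := by rw [mem_ball, dist_zx]; exact hp
  have hFc : ∀ k j, ∀ᶠ w in 𝓝 (zx p), |Real.log ‖F k j w‖| ≤ |Real.log ‖F k j (zx p)‖| + 1 := by
    intro k j
    have h1 : ContinuousAt (F k j) (zx p) :=
      ((hO.diff k j).differentiableAt (isOpen_ball.mem_nhds hzxp)).continuousAt
    have h2 : ContinuousAt (fun w => |Real.log ‖F k j w‖|) (zx p) :=
      (h1.norm.log (norm_ne_zero_iff.2 (hO.ne p hp hpZ k j))).abs
    exact (h2.eventually (gt_mem_nhds (lt_add_one _))).mono fun w hw => hw.le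
  obtain ⟨ε, hε, h1⟩ := Metric.eventually_nhds_iff_ball.1
    ((isOpen_ball.eventually_mem hzxp).and (eventually_all.2 fun k => eventually_all.2 (hFc k)))
  refine ⟨∑ k, ∑ j, |c j| * (C k j + (|Real.log ‖F k j (zx p)‖| + 1)), ?_⟩
  filter_upwards [hG.cover p (ball_subset_ball hO.le hp) ε hε] with x' hx' y hyO hyD hyx
  have hxO : x' ∈ v '' O := ⟨ι y, hyO, hyx⟩
  have hxB : x' ∈ B := by
    rw [← hyx, hBH _ hyO]; exact mem_range_self y
  have hxS : x' ∉ S := fun hS => hSO hS hxO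
  obtain ⟨k, w, hw, hΓ⟩ := hx' hxB hxS
  obtain ⟨hwρ, hwF⟩ := h1 w hw
  obtain ⟨h2, h3⟩ := (hG.lift k w (ball_subset_ball hO.le hwρ)).eq (by rw [hΓ]; exact hxO)
  have hqy : q k w = y := hι.inj (hv.inj h2 hyO (by rw [h3, hΓ]; exact hyx.symm))
  have h4 := hO.est c hwρ (k := k) (fun j hj => hyD (mem_iUnion.2 ⟨j, by rw [← hqy]; exact hj⟩))
    (fun j => hwF k j)
  rw [hc k, zero_mul, sub_zero, hqy] at h4
  refine h4.trans ?_
  exact Finset.single_le_sum (f := fun k => ∑ j, |c j| * (C k j + (|Real.log ‖F k j (zx p)‖| + 1)))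
    (fun k _ => Finset.sum_nonneg fun j _ => mul_nonneg (abs_nonneg _)
      (add_nonneg (hO.C0 k j) (by positivity))) (Finset.mem_univ k)

/-- if a combination of the orders does not vanish, the function is not bounded -/
theorem not_bd_of [CompactSpace H] [T2Space H] (hG : Good S B O v ι d g p₀ r Γ q)
    (hv : IsOpenEmb X O v) (h : ∀ j y, LogAt 3 (D j) (u j) y)
    (hO : OrdData D u p₀ r q ρ m F C Z) (c : Fin N → ℝ) {k : Fin d}
    (hc : ∑ j, c j * (m k j : ℝ) ≠ 0) {p : Cm 2} (hp : p ∈ ball p₀ ρ) (hpZ : p ∉ Z) :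
    ¬ BdAt (ι ⁻¹' O) (⋃ j, D j) (fun y => v (ι y)) (fun y => ∑ j, c j * u j y) (g p) := by
  rintro ⟨C₀, hC₀⟩
  have hvO : IsOpen (v '' O) := hv.isOpenMap O Subset.rfl hv.isOpen
  have hzxp : zx p ∈ ball (zx p₀) ρ := by rw [mem_ball, dist_zx]; exact hp
  have hs : ball (zx p₀) ρ ⊆ ball (zx p₀) r := ball_subset_ball hO.le
  have hFc : ∀ j, ∀ᶠ w in 𝓝 (zx p), |Real.log ‖F k j w‖| ≤ |Real.log ‖F k j (zx p)‖| + 1 := by
    intro j
    have h1 : ContinuousAt (F k j) (zx p) :=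
      ((hO.diff k j).differentiableAt (isOpen_ball.mem_nhds hzxp)).continuousAt
    have h2 : ContinuousAt (fun w => |Real.log ‖F k j w‖|) (zx p) :=
      (h1.norm.log (norm_ne_zero_iff.2 (hO.ne p hp hpZ k j))).abs
    exact (h2.eventually (gt_mem_nhds (lt_add_one _))).mono fun w hw => hw.le
  set A : ℝ := ∑ j, c j * (m k j : ℝ) with hA
  set C₁ : ℝ := ∑ j, |c j| * (C k j + (|Real.log ‖F k j (zx p)‖| + 1)) with hC₁
  have hA0 : 0 < |A| := abs_pos.2 hc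
  -- small `w 0`
  set δ : ℝ := Real.exp (-((|C₀| + C₁) / |A|) - 1) with hδ
  have hsmall : ∀ᶠ w : Cm 3 in 𝓝 (zx p), ‖w 0‖ < δ := by
    have h1 : ContinuousAt (fun w : Cm 3 => ‖w 0‖) (zx p) := by
      have : Continuous fun w : Cm 3 => ‖w 0‖ := by fun_prop
      exact this.continuousAt
    refine h1.eventually (gt_mem_nhds ?_)
    show ‖zx p 0‖ < δ
    rw [zx_zero, norm_zero]
    exact Real.exp_pos _
  have hΓc : ContinuousAt (Γ k) (zx p) := hG.cont k _ (hs hzxp)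
  have hΓp : Γ k (zx p) = g p := hG.exc k p (ball_subset_ball hO.le hp)
  have hev := hΓc.eventually (by rw [hΓp]; exact hC₀)
  obtain ⟨U, hU, hUo, hpU⟩ := _root_.eventually_nhds_iff.1
    (((isOpen_ball.eventually_mem hzxp).and (eventually_all.2 hFc)).and (hsmall.and hev))
  have hNo : IsOpen {w | w ∈ U ∧ w 0 ≠ 0} :=
    hUo.inter (isOpen_ne_fun (continuous_apply 0) continuous_const)
  have hNne : {w | w ∈ U ∧ w 0 ≠ 0}.Nonempty := by
    obtain ⟨w, hw, hw0⟩ := exists_ne_zero hUo ⟨_, hpU⟩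
    exact ⟨w, hw, hw0⟩
  have hN'o : IsOpen {w | (w ∈ U ∧ w 0 ≠ 0) ∧ Γ k w ∈ v '' O} := by
    rw [isOpen_iff_mem_nhds]
    rintro w ⟨hw, hw'⟩
    exact inter_mem (hNo.mem_nhds hw) ((hG.cont k w (hs (hU w hw.1).1.1)).preimage_mem_nhds
      (hvO.mem_nhds hw'))
  have hN'ne : {w | (w ∈ U ∧ w 0 ≠ 0) ∧ Γ k w ∈ v '' O}.Nonempty := by
    obtain ⟨w, hw, hw'⟩ := hG.dense k _ (fun w hw => hs (hU w hw.1).1.1) hNo hNne
    exact ⟨w, hw, hw'⟩
  have hint := hG.gen k _ (fun w hw => hs (hU w hw.1.1).1.1) hN'o hN'ne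
  have hdense : Dense (⋂ j, (D j)ᶜ) :=
    dense_iInter_of_isOpen (fun j => logAt_open (h j)) fun j => logAt_dense (h j)
  obtain ⟨y, hy, hyD⟩ := hdense.inter_open_nonempty _ isOpen_interior hint
  obtain ⟨w, ⟨⟨hwU, hw0⟩, hwO⟩, rfl⟩ := interior_subset hy
  obtain ⟨⟨hwρ, hwF⟩, hwδ, hwb⟩ := hU w hwU
  obtain ⟨h2, h3⟩ := (hG.lift k w (hs hwρ)).eq hwO
  have hwD : ∀ j, q k w ∉ D j := fun j => (mem_iInter.1 hyD j)
  have h4 := hwb (q k w) h2 (fun hcon => by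
    obtain ⟨j, hj⟩ := mem_iUnion.1 hcon
    exact hwD j hj) h3
  have h5 := hO.est c hwρ (k := k) hwD hwF
  have hw0' : 0 < ‖w 0‖ := norm_pos_iff.2 hw0
  have h6 : Real.log ‖w 0‖ < -((|C₀| + C₁) / |A|) - 1 := by
    rw [← Real.log_exp (-((|C₀| + C₁) / |A|) - 1)]
    exact Real.log_lt_log hw0' hwδ
  have hC₁0 : 0 ≤ C₁ := Finset.sum_nonneg fun j _ => mul_nonneg (abs_nonneg _)
      (add_nonneg (hO.C0 k j) (by positivity))
  have h7 : |A * Real.log ‖w 0‖| ≤ |C₀| + C₁ := by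
    have h8 : A * Real.log ‖w 0‖ = (∑ j, c j * u j (q k w)) -
      ((∑ j, c j * u j (q k w)) - A * Real.log ‖w 0‖) := by ring
    rw [h8]
    refine (abs_sub _ _).trans (add_le_add (h4.trans (le_abs_self _)) h5)
  rw [abs_mul] at h7
  have h9 : |Real.log ‖w 0‖| ≤ (|C₀| + C₁) / |A| := by
    rw [le_div_iff₀ hA0]; linarith
  have h10 := neg_abs_le (Real.log ‖w 0‖)
  linarith

end dich

end Vale.Agent.P277.H60.X
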