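import Vale.Agent.P277.H619.Surf
import Vale.Agent.P277.H73.IFT
import Vale.Agent.P277.H762.L1a
import Vale.Agent.P277.Stmts9

/-!
# P277, T3, EX: straight charts at the generic points of surfaces
-/

open scoped Manifold ContDiff Topology
open Vale.Agent.P272.K Vale.Agent.P285.H281.FD Set Filter Metric

noncomputable section

namespace Vale.Agent.P277.H60.X

open Vale.Agent.P277 Vale.Agent.P277.H762

/-- `ψ : D → X` is a local coordinate system in which `S` is `{z 0 = z 1 = 0}`. -/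
structure SChart (X : CSp) (S : Set X.pt) (ψ : Cm 4 → X.pt) (D : Set (Cm 4)) : Prop where
  isOpen : IsOpen D
  inj : InjOn ψ D
  openMap : ∀ W ⊆ D, IsOpen W → IsOpen (ψ '' W)
  cont : ∀ z ∈ D, ContinuousAt ψ z
  hol : ∀ z ∈ D, ∀ F : X.pt → ℂ, X.Hol F (ψ z) ↔ AnalyticAt ℂ (fun z => F (ψ z)) z
  mem : ∀ z ∈ D, (ψ z ∈ S ↔ z 0 = 0 ∧ z 1 = 0)

/-- two independent functionals are completed to coordinates -/
theorem exists_compl_dual {a b : Cm 4 →L[ℂ] ℂ} (h : LinearIndependent ℂ ![a, b]) :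
    ∃ c d : Cm 4 →L[ℂ] ℂ, ∀ v, a v = 0 → b v = 0 → c v = 0 → d v = 0 → v = 0 := by
  have hfr : Module.finrank ℂ (Cm 4 →L[ℂ] ℂ) = 4 := by
    rw [← (LinearMap.toContinuousLinearMap : (Cm 4 →ₗ[ℂ] ℂ) ≃ₗ[ℂ] (Cm 4 →L[ℂ] ℂ)).finrank_eq,
      Module.finrank_linearMap]
    simp
  have : FiniteDimensional ℂ (Cm 4 →L[ℂ] ℂ) :=
    LinearEquiv.finiteDimensional
      (LinearMap.toContinuousLinearMap : (Cm 4 →ₗ[ℂ] ℂ) ≃ₗ[ℂ] (Cm 4 →L[ℂ] ℂ))
  obtain ⟨d, hd⟩ := exists_linearIndependent_cons_of_lt_finrank h (by rw [hfr]; norm_num)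
  obtain ⟨c, hc⟩ := exists_linearIndependent_cons_of_lt_finrank hd (by rw [hfr]; norm_num)
  refine ⟨c, d, fun v ha hb hc' hd' => ?_⟩
  have hspan := hc.span_eq_top_of_card_eq_finrank' (by simp [hfr])
  have hle : Submodule.span ℂ (range (Fin.cons c (Fin.cons d ![a, b]) : Fin 4 → Cm 4 →L[ℂ] ℂ)) ≤
      LinearMap.ker ((ContinuousLinearMap.apply ℂ ℂ v : (Cm 4 →L[ℂ] ℂ) →L[ℂ] ℂ) :
        (Cm 4 →L[ℂ] ℂ) →ₗ[ℂ] ℂ) := by
    rw [Submodule.span_le]
    rintro _ ⟨i, rfl⟩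
    fin_cases i
    · exact hc'
    · exact hd'
    · exact ha
    · exact hb
  funext i
  have h1 : (ContinuousLinearMap.proj (R := ℂ) (φ := fun _ : Fin 4 => ℂ) i : Cm 4 →L[ℂ] ℂ) ∈
      Submodule.span ℂ (range (Fin.cons c (Fin.cons d ![a, b]) : Fin 4 → Cm 4 →L[ℂ] ℂ)) := by
    have h2 : Submodule.span ℂ (range (Fin.cons c (Fin.cons d ![a, b]) :
        Fin 4 → Cm 4 →L[ℂ] ℂ)) = ⊤ := hspan
    rw [h2]; trivial
  exact hle h1

/-- at a regular point of `X` where `S` is a manifold there is a straight chart -/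
theorem exists_sChart {X : CSp} {S : Set X.pt} {x : X.pt} (hr : IsReg 4 X x)
    (hs : IsSurfX X S x) : ∃ (ψ : Cm 4 → X.pt) (D : Set (Cm 4)) (z : Cm 4), SChart X S ψ D ∧
      z ∈ D ∧ ψ z = x := by
  let x' : RegT X := ⟨x, hr⟩
  obtain ⟨e, he, f, g, hf, hg, hfg, hS⟩ := H619.isSurfAt_of (x := x') hs
  obtain ⟨c, d, hcd⟩ := exists_compl_dual hfg
  let Ψ : Cm 4 → Cm 4 := fun z => ![f z, g z, c z, d z]
  have hΨan : AnalyticAt ℂ Ψ (e x') := by
    refine AnalyticAt.pi fun k => ?_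
    fin_cases k
    · exact hf
    · exact hg
    · exact c.analyticAt _
    · exact d.analyticAt _
  have hΨd : ∀ v, fderiv ℂ Ψ (e x') v = ![fderiv ℂ f (e x') v, fderiv ℂ g (e x') v, c v, d v] := by
    intro v
    ext k
    have h1 : fderiv ℂ (fun q => Ψ q k) (e x') v = fderiv ℂ Ψ (e x') v k := by
      rw [fderiv_apply hΨan.differentiableAt]
      rfl
    rw [← h1]
    fin_cases k
    · rfl
    · rfl
    · show fderiv ℂ (fun q => c q) (e x') v = c v
      rw [c.fderiv]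
    · show fderiv ℂ (fun q => d q) (e x') v = d v
      rw [d.fderiv]
  have hinj : Function.Injective (fderiv ℂ Ψ (e x')) := by
    rw [injective_iff_map_eq_zero]
    intro v hv
    rw [hΨd] at hv
    exact hcd v (congrFun hv 0) (congrFun hv 1) (congrFun hv 2) (congrFun hv 3)
  obtain ⟨E, hE, hxE, hEan, hEsymm⟩ := H73.exists_localInv hΨan hinj
  obtain ⟨N, hN, hNo, hxN⟩ := _root_.eventually_nhds_iff.1 (hS.and (e.open_source.eventually_mem he.2))
  have hv := RegT.isOpenEmb_val X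
  have heN : IsOpen (e '' N) := e.isOpen_image_of_subset_source hNo fun y hy => (hN y hy).2
  set D : Set (Cm 4) := E.target ∩ E.symm ⁻¹' (e '' N) with hD
  have hDo : IsOpen D := E.isOpen_inter_preimage_symm heN
  let ψ : Cm 4 → X.pt := fun z => (e.symm (E.symm z)).val
  -- points of `D`
  have hpt : ∀ z ∈ D, ∃ y ∈ N, E.symm z = e y ∧ ψ z = y.val := by
    rintro z ⟨-, y, hy, hyz⟩
    refine ⟨y, hy, hyz.symm, ?_⟩
    show (e.symm (E.symm z)).val = y.val
    rw [← hyz, e.left_inv (hN y hy).2]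
  have hc1 : ∀ z ∈ D, ContinuousAt E.symm z := fun z hz => E.continuousAt_symm hz.1
  have hc2 : ∀ z ∈ D, ContinuousAt (fun z => e.symm (E.symm z)) z := by
    intro z hz
    obtain ⟨y, hy, hyz, -⟩ := hpt z hz
    refine ContinuousAt.comp (g := e.symm) (e.continuousAt_symm ?_) (hc1 z hz)
    rw [hyz]
    exact e.map_source (hN y hy).2
  refine ⟨ψ, D, Ψ (e x'), ⟨hDo, ?_, ?_, ?_, ?_, ?_⟩, ?_, ?_⟩
  · intro z hz z' hz' h
    obtain ⟨y, hy, hyz, hyψ⟩ := hpt z hz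
    obtain ⟨y', hy', hyz', hyψ'⟩ := hpt z' hz'
    have h1 : y = y' := RegT.val_injective (by rw [← hyψ, ← hyψ']; exact h)
    rw [← E.right_inv hz.1, ← E.right_inv hz'.1, hyz, hyz', h1]
  · intro W hW hWo
    have h1 : ψ '' W = RegT.val '' (e.symm '' (E.symm '' W)) := by
      rw [← image_comp, ← image_comp]; rfl
    rw [h1]
    refine hv.isOpenMap _ (subset_univ _) ?_
    refine e.symm.isOpen_image_of_subset_source ?_ ?_
    · exact E.symm.isOpen_image_of_subset_source hWo fun z hz => (hW hz).1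
    · rintro _ ⟨z, hz, rfl⟩
      obtain ⟨y, hy, hyz, -⟩ := hpt z (hW hz)
      rw [hyz]
      exact e.map_source (hN y hy).2
  · intro z hz
    exact RegT.continuous_val.continuousAt.comp (hc2 z hz)
  · intro z hz F
    obtain ⟨y, hy, hyz, hyψ⟩ := hpt z hz
    have hye : At e y := ⟨he.1, (hN y hy).2⟩
    rw [hyψ, hv.hol y (mem_univ y) e hye F, ← hyz]
    constructor
    · intro h
      exact AnalyticAt.fun_comp (g := fun z => F (e.symm z).val) h (hEsymm z hz.1)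
    · intro h
      have h2 : E (E.symm z) = z := E.right_inv hz.1
      have h3 : AnalyticAt ℂ (fun w => F (ψ (E w))) (E.symm z) := by
        refine AnalyticAt.fun_comp (g := fun z => F (ψ z)) (by rw [h2]; exact h) ?_
        rw [hE]
        exact hEan _ (E.map_target hz.1)
      refine h3.congr ?_
      filter_upwards [E.open_source.mem_nhds (E.map_target hz.1)] with w hw
      show F (e.symm (E.symm (E w))).val = _
      rw [E.left_inv hw]
  · intro z hz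
    obtain ⟨y, hy, hyz, hyψ⟩ := hpt z hz
    rw [hyψ]
    have h1 := (hN y hy).1
    have h2 : z = Ψ (e y) := by rw [← hyz, ← hE, E.right_inv hz.1]
    have h3 : z 0 = f (e y) := by rw [h2]; rfl
    have h4 : z 1 = g (e y) := by rw [h2]; rfl
    rw [h3, h4]
    exact h1
  · refine ⟨?_, ?_⟩
    · rw [← hE]; exact E.map_source hxE
    · show E.symm (Ψ (e x')) ∈ e '' N
      rw [← hE, E.left_inv hxE]
      exact ⟨x', hxN, rfl⟩
  · show (e.symm (E.symm (Ψ (e x')))).val = x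
    rw [← hE, E.left_inv hxE, e.left_inv he.2]
    rfl

theorem SChart.mono {X : CSp} {S : Set X.pt} {ψ : Cm 4 → X.pt} {D D' : Set (Cm 4)}
    (h : SChart X S ψ D) (hD' : IsOpen D') (hs : D' ⊆ D) : SChart X S ψ D' :=
  ⟨hD', h.inj.mono hs, fun W hW => h.openMap W (hW.trans hs), fun z hz => h.cont z (hs hz),
    fun z hz => h.hol z (hs hz), fun z hz => h.mem z (hs hz)⟩

theorem SChart.holAt {X : CSp} {S : Set X.pt} {ψ : Cm 4 → X.pt} {D : Set (Cm 4)}
    (h : SChart X S ψ D) {z : Cm 4} (hz : z ∈ D) : HolAt X ψ z :=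
  ⟨h.cont z hz, fun F hF => (h.hol z hz F).1 hF⟩

/-- the inverse of a straight chart -/
def SChart.inv {X : CSp} (ψ : Cm 4 → X.pt) (D : Set (Cm 4)) (x : X.pt) : Cm 4 :=
  Function.invFunOn ψ D x

section
variable {X : CSp} {S : Set X.pt} {ψ : Cm 4 → X.pt} {D : Set (Cm 4)} (h : SChart X S ψ D)
include h

theorem SChart.inv_apply {z : Cm 4} (hz : z ∈ D) : SChart.inv ψ D (ψ z) = z :=
  h.inj.leftInvOn_invFunOn hz

theorem SChart.apply_inv {x : X.pt} (hx : x ∈ ψ '' D) : ψ (SChart.inv ψ D x) = x := by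
  obtain ⟨z, hz, rfl⟩ := hx
  rw [h.inv_apply hz]

theorem SChart.inv_mem {x : X.pt} (hx : x ∈ ψ '' D) : SChart.inv ψ D x ∈ D := by
  obtain ⟨z, hz, rfl⟩ := hx
  rwa [h.inv_apply hz]

theorem SChart.inv_hol {x : X.pt} (hx : x ∈ ψ '' D) (i : Fin 4) :
    X.Hol (fun y => SChart.inv ψ D y i) x := by
  obtain ⟨z, hz, rfl⟩ := hx
  rw [h.hol z hz]
  refine ((ContinuousLinearMap.proj (R := ℂ) (φ := fun _ : Fin 4 => ℂ) i).analyticAt z).congr ?_
  filter_upwards [h.isOpen.mem_nhds hz] with w hw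
  rw [h.inv_apply hw]
  rfl

/-- dimension in a straight chart -/
theorem SChart.cv {d : ℕ} {T : Set X.pt} (hT : DimLe X d T) : Cv d {z | z ∈ D ∧ ψ z ∈ T} := by
  obtain ⟨Ω, g, h1, h2, h3⟩ := hT
  have hDo : IsOpen (ψ '' D) := h.openMap D Subset.rfl h.isOpen
  refine ⟨fun l => {p | p ∈ Ω l ∧ g l p ∈ ψ '' D}, fun l p => SChart.inv ψ D (g l p), fun l => ?_,
    fun l p hp => ?_, fun z hz => ?_⟩
  · rw [isOpen_iff_mem_nhds]
    intro p hp
    filter_upwards [(h1 l).mem_nhds hp.1, (h2 l p hp.1).1.eventually (hDo.mem_nhds hp.2)] with q hq hq'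
      using ⟨hq, hq'⟩
  · exact AnalyticAt.pi fun i => (h2 l p hp.1).analyticAt (h.inv_hol hp.2 i)
  · obtain ⟨l, p, hp, hpz⟩ := mem_iUnion.1 (h3 hz.2)
    refine mem_iUnion.2 ⟨l, p, ⟨hp, by rw [hpz]; exact mem_image_of_mem _ hz.1⟩, ?_⟩
    show SChart.inv ψ D (g l p) = z
    rw [hpz, h.inv_apply hz.1]

/-- dimension in a straight chart -/
theorem SChart.dimLe {d : ℕ} {T : Set (Cm 4)} (hT : Cv d T) : DimLe X d (ψ '' (D ∩ T)) := by
  obtain ⟨Ω, g, h1, h2, h3⟩ := hT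
  refine ⟨fun l => {p | p ∈ Ω l ∧ g l p ∈ D}, fun l p => ψ (g l p), fun l => ?_, fun l p hp => ?_,
    ?_⟩
  · rw [isOpen_iff_mem_nhds]
    intro p hp
    filter_upwards [(h1 l).mem_nhds hp.1,
      (h2 l p hp.1).continuousAt.eventually (h.isOpen.mem_nhds hp.2)] with q hq hq' using ⟨hq, hq'⟩
  · exact HolAt.comp (h.holAt hp.2) (h2 l p hp.1)
  · rintro _ ⟨z, ⟨hz, hzT⟩, rfl⟩
    obtain ⟨l, p, hp, rfl⟩ := mem_iUnion.1 (h3 hzT)
    exact mem_iUnion.2 ⟨l, p, ⟨hp, hz⟩, rfl⟩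

end

/-- local left inverses of immersions -/
theorem exists_leftInv {m k : ℕ} {F : Cm m → Cm k} {p : Cm m} (hF : AnalyticAt ℂ F p)
    (hD : Function.Injective (fderiv ℂ F p)) :
    ∃ lam : Cm k → Cm m, AnalyticAt ℂ lam (F p) ∧ ∀ᶠ q in 𝓝 p, lam (F q) = q := by
  obtain ⟨L, hL⟩ := LinearMap.exists_leftInverse_of_injective
    (fderiv ℂ F p : Cm m →ₗ[ℂ] Cm k) (LinearMap.ker_eq_bot.2 hD)
  let L' : Cm k →L[ℂ] Cm m := LinearMap.toContinuousLinearMap L
  have hL' : ∀ v, L' (fderiv ℂ F p v) = v := fun v => by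
    have := congrArg (fun T : Cm m →ₗ[ℂ] Cm m => T v) hL
    exact this
  have hG : AnalyticAt ℂ (fun q => L' (F q)) p := (L'.analyticAt _).fun_comp hF
  have hGd : fderiv ℂ (fun q => L' (F q)) p = L'.comp (fderiv ℂ F p) :=
    (L'.hasFDerivAt.comp p hF.differentiableAt.hasFDerivAt).fderiv
  obtain ⟨e, he, hp, -, hsymm⟩ := H73.exists_localInv hG (by
    rw [hGd]
    intro v w hvw
    have h1 : L' (fderiv ℂ F p v) = L' (fderiv ℂ F p w) := hvw
    rwa [hL', hL'] at h1)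
  have hpt : L' (F p) ∈ e.target := by
    have := e.map_source hp
    rwa [he] at this
  refine ⟨fun z => e.symm (L' z), ?_, ?_⟩
  · exact AnalyticAt.fun_comp (hsymm _ hpt) (L'.analyticAt _)
  · filter_upwards [e.open_source.mem_nhds hp] with q hq
    have := e.left_inv hq
    rw [he] at this
    exact this

/-- a set of small dimension does not contain a piece of an immersed manifold -/
theorem exists_notMem_of_cv {m k d : ℕ} (hdm : d < m) {F : Cm m → Cm k} {p : Cm m}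
    (hF : AnalyticAt ℂ F p) (hD : Function.Injective (fderiv ℂ F p)) {T : Set (Cm k)}
    (hT : Cv d T) {N : Set (Cm m)} (hN : N ∈ 𝓝 p) : ∃ q ∈ N, F q ∉ T := by
  by_contra hcon
  push Not at hcon
  obtain ⟨lam, hlam, hlF⟩ := exists_leftInv hF hD
  obtain ⟨U, hU, hUo, hFU⟩ := _root_.eventually_nhds_iff.1 hlam.eventually_analyticAt
  have h1 : Cv d (lam '' (T ∩ U)) :=
    Cv.image (hT.mono inter_subset_left) hUo inter_subset_right fun z hz => hU z hz
  have h2 : lam '' (T ∩ U) ∈ 𝓝 p := by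
    filter_upwards [hN, hlF, hF.continuousAt.eventually (hUo.mem_nhds hFU)] with q h3 h4 h5
    exact ⟨F q, ⟨hcon q h3, h5⟩, h4⟩
  exact not_cv_nhds (by simpa using hdm) h2 h1

end Vale.Agent.P277.H60.X
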