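import Vale.Agent.P277.H60.X.GoodOf

/-!
# P277, T3, EX: the bad points are a closed thin set
-/

open scoped Manifold ContDiff Topology
open Vale.Agent.P272.K Vale.Agent.P285.H281.FD Set Filter Metric

set_option linter.unusedSectionVars false

noncomputable section

namespace Vale.Agent.P277.H60.X

open Vale.Agent.P277 Vale.Agent.P277.H762 Vale.Agent.P277.T3

/-- dimension is local -/
theorem dimLe_of_local {X : CSp} [Nonempty X.pt] {d : ℕ} {T : Set X.pt}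
    (h : ∀ x ∈ T, ∃ V : Set X.pt, IsOpen V ∧ x ∈ V ∧ DimLe X d (V ∩ T)) : DimLe X d T := by
  choose! V hV hxV hd using h
  obtain ⟨t, htT, htc, ht⟩ := TopologicalSpace.countable_cover_nhdsWithin
    (f := V) (s := T) fun x hx => mem_nhdsWithin_of_mem_nhds ((hV x hx).mem_nhds (hxV x hx))
  refine (dimLe_biUnion htc fun x hx => hd x (htT hx)).mono fun x hx => ?_
  obtain ⟨y, hy, hxy⟩ := mem_iUnion₂.1 (ht hx)
  exact mem_iUnion₂.2 ⟨y, hy, hxy, hx⟩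

variable {X : CSp} {S : Set X.pt} {ψ : Cm 4 → X.pt} {D : Set (Cm 4)}
variable {Y H : Type} [TopologicalSpace Y] [ChartedSpace (Cm 4) Y] [TopologicalSpace H]
  [ChartedSpace (Cm 3) H]
variable {B : Set X.pt} {O : Set Y} {v : Y → X.pt} {ι : H → Y} {σ : Cm 4 → ℂ}

/-- the good points -/
def GS (S B : Set X.pt) (O : Set Y) (v : Y → X.pt) (ι : H → Y) : Set X.pt :=
  {x | ∃ (d : ℕ) (g : Cm 2 → X.pt) (p₀ : Cm 2) (r : ℝ) (Γ : Fin d → Cm 3 → X.pt)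
    (q : Fin d → Cm 3 → H), Good S B O v ι d g p₀ r Γ q ∧ g p₀ = x}

theorem GS_open {x : X.pt} (hx : x ∈ GS S B O v ι) :
    ∃ V : Set X.pt, IsOpen V ∧ x ∈ V ∧ V ∩ S ⊆ GS S B O v ι := by
  obtain ⟨d, g, p₀, r, Γ, q, hG, rfl⟩ := hx
  obtain ⟨V, hV, hVS⟩ := hG.openS _ Subset.rfl isOpen_ball
  have h1 : g p₀ ∈ V ∩ S := by
    rw [hVS]; exact ⟨p₀, mem_ball_self hG.pos, rfl⟩
  refine ⟨V, hV, h1.1, ?_⟩
  rw [hVS]
  rintro _ ⟨p, hp, rfl⟩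
  rw [mem_ball] at hp
  exact ⟨d, g, p, r - dist p p₀, Γ, q, hG.mono (by linarith) (by linarith), rfl⟩

theorem GS_sub : GS S B O v ι ⊆ S := by
  rintro _ ⟨d, g, p₀, r, Γ, q, hG, rfl⟩
  obtain ⟨V, hV, hVS⟩ := hG.openS _ Subset.rfl isOpen_ball
  have h1 : g p₀ ∈ V ∩ S := by
    rw [hVS]; exact ⟨p₀, mem_ball_self hG.pos, rfl⟩
  exact h1.2

theorem GS_surf {x : X.pt} (hx : x ∈ GS S B O v ι) : IsSurfX X S x := by
  obtain ⟨d, g, p₀, r, Γ, q, hG, rfl⟩ := hx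
  exact hG.surf p₀ (mem_ball_self hG.pos)

theorem isClosed_bad (hS : IsClosed S) : IsClosed (S \ GS S B O v ι) := by
  rw [← isOpen_compl_iff, isOpen_iff_mem_nhds]
  intro x hx
  by_cases hxS : x ∈ S
  · have hxG : x ∈ GS S B O v ι := by
      by_contra hcon
      exact hx ⟨hxS, hcon⟩
    obtain ⟨V, hV, hxV, hVG⟩ := GS_open hxG
    filter_upwards [hV.mem_nhds hxV] with y hy hy'
    exact hy'.2 (hVG ⟨hy, hy'.1⟩)
  · filter_upwards [hS.isOpen_compl.mem_nhds hxS] with y hy hy'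
    exact hy hy'.1

/-- local equations of `B` in straight charts do not vanish identically -/
theorem not_zero [CompactSpace H] (hι : IsSub ι) (hv : IsOpenEmb X O v)
    (hdim : DimLe X 2 (v '' O)ᶜ) (hBH : ∀ y ∈ O, v y ∈ B ↔ y ∈ range ι)
    (hch : SChart X S ψ D) (hσ : ∀ z ∈ D, (ψ z ∈ B ↔ σ z = 0)) {z : Cm 4} (hz : z ∈ D) :
    ¬ σ =ᶠ[𝓝 z] 0 := by
  intro hcon
  obtain ⟨N, hN, hNo, hzN⟩ := _root_.eventually_nhds_iff.1
    ((show ∀ᶠ w in 𝓝 z, σ w = 0 from hcon).and (hch.isOpen.eventually_mem hz))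
  have h1 : ∃ w ∈ N, ψ w ∈ v '' O := by
    by_contra hcon2
    push Not at hcon2
    refine not_cv_nhds (x := z) (by simp) ?_ (hch.cv hdim)
    filter_upwards [hNo.mem_nhds hzN] with w hw using ⟨(hN w hw).2, hcon2 w hw⟩
  obtain ⟨w, hw, y, hy, hyw⟩ := h1
  have hψN : IsOpen (ψ '' N) := hch.openMap N (fun w hw => (hN w hw).2) hNo
  have hWo : IsOpen (O ∩ v ⁻¹' (ψ '' N)) := hv.cont.isOpen_inter_preimage hv.isOpen hψN
  refine not_subset_range hι hWo ⟨y, hy, ?_⟩ ?_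
  · show v y ∈ ψ '' N
    rw [hyw]; exact mem_image_of_mem _ hw
  · rintro y' ⟨hy', w', hw', hyw'⟩
    rw [← hBH y' hy', ← hyw', hσ w' (hN w' hw').2]
    exact (hN w' hw').1

/-- the places lift outside thin sets -/
theorem place_lift [T2Space Y] [CompactSpace H] [Nonempty H] [IsManifold 𝓘(ℂ, Cm 4) ω Y]
    [IsManifold 𝓘(ℂ, Cm 3) ω H] (hB1 : StB1) (hι : IsSub ι) (hdim : DimLe X 2 (v '' O)ᶜ)
    (hLi : Lifts X O v)
    (hBH : ∀ y ∈ O, v y ∈ B ↔ y ∈ range ι) (hch : SChart X S ψ D)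
    (hσ : ∀ z ∈ D, (ψ z ∈ B ↔ σ z = 0)) {b : Cm 3} (hb : b 0 = 0) {r : ℝ} {γ : Cm 3 → Cm 4}
    (hγ : IsPl σ b r γ) (hγD : ∀ w ∈ ball b r, γ w ∈ D) :
    Cv 1 {w : Cm 3 | w ∈ ball b r ∧ w 0 = 0 ∧ ¬ ∃ ρ > 0, ∃ q : Cm 3 → H, ∀ w' ∈ ball w ρ,
      LiftD O v ι (fun w => ψ (γ w)) q w'} := by
  have hpc : Continuous pr := continuous_of_an pr_an
  have hWo : IsOpen (pr ⁻¹' ball b r) := isOpen_ball.preimage hpc
  have hdense : ∀ N ⊆ ball b r, IsOpen N → N.Nonempty → ∃ w ∈ N, ψ (γ w) ∈ v '' O := by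
    intro N hN hNo hne
    obtain ⟨w, hw, hw'⟩ := hγ.exists_notMem hb hch hdim hNo hN (fun w hw => hγD w (hN hw)) hne
    exact ⟨w, hw, by simpa using hw'⟩
  obtain ⟨Ω, G, h1, h2, h3⟩ := hLi (pr ⁻¹' ball b r) hWo (fun z => ψ (γ (pr z)))
    (fun w hw => HolAt.comp (g := ψ) (γ := fun z => γ (pr z)) (hch.holAt (hγD _ hw))
      ((hγ.an _ hw).fun_comp (pr_an w)))
    (by
      intro w hw
      rw [mem_closure_iff_nhds]
      intro U hU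
      obtain ⟨U', hU', hU'o, hwU'⟩ := _root_.mem_nhds_iff.1 hU
      have hexw : ex (w 3) (pr w) = w := by
        ext i; fin_cases i <;> rfl
      have h4 : IsOpen (ex (w 3) ⁻¹' (U' ∩ pr ⁻¹' ball b r)) :=
        (hU'o.inter hWo).preimage (continuous_of_an (ex_an _))
      obtain ⟨u, hu, hu'⟩ := hdense (ex (w 3) ⁻¹' (U' ∩ pr ⁻¹' ball b r))
        (fun u hu => by
          have := hu.2
          rw [mem_preimage, pr_ex] at this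
          exact this) h4 ⟨pr w, by
            rw [mem_preimage, hexw]; exact ⟨hwU', hw⟩⟩
      refine ⟨ex (w 3) u, hU' hu.1, hu.2, ?_⟩
      show ψ (γ (pr (ex (w 3) u))) ∈ v '' O
      rw [pr_ex]; exact hu')
  obtain ⟨c, hc⟩ := exists_slice hB1 (T := {w | w ∈ pr ⁻¹' ball b r ∧ w 0 = 0 ∧
    ¬ LiftAt O v (fun z => ψ (γ (pr z))) w}) ⟨Ω, G, h1, h2, h3⟩
  refine hc.mono ?_
  rintro w ⟨hw, hw0, hw'⟩
  refine ⟨by rw [mem_preimage, pr_ex]; exact hw, hw0, fun hcon => hw' ?_⟩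
  exact liftH_of (Γ := fun w => ψ (γ w)) hι hBH hcon isOpen_ball hw
    (fun N' hN' hN'o hne => hdense N' hN' hN'o hne)
    (fun w' hw' => (hσ _ (hγD w' hw')).2 (hγ.zero w' hw'))

/-- the points of a straight chart with places which are not good are thin -/
theorem chart_bad [T2Space Y] [CompactSpace H] [Nonempty H] [IsManifold 𝓘(ℂ, Cm 4) ω Y]
    [IsManifold 𝓘(ℂ, Cm 3) ω H] (hB1 : StB1) (hι : IsSub ι) (hv : IsOpenEmb X O v)
    (hdim : DimLe X 2 (v '' O)ᶜ)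
    (hLi : Lifts X O v) (hBH : ∀ y ∈ O, v y ∈ B ↔ y ∈ range ι) (hch : SChart X S ψ D)
    (hσ : ∀ z ∈ D, (ψ z ∈ B ↔ σ z = 0)) :
    Cv 1 {z | z ∈ D ∧ z 0 = 0 ∧ z 1 = 0 ∧ PlaceAt σ z ∧ ψ z ∉ GS S B O v ι} := by
  refine cv_of_local ?_
  rintro x ⟨hx, hx0, hx1, ⟨d, r, γ, hr, hγ, hcov⟩, -⟩
  have hpl : ∀ k, IsPl σ (zx (lst x)) r (γ k) := fun k =>
    ⟨fun w hw => (hγ k w hw).1, fun w hw => (hγ k w hw).2.1, fun w hw => (hγ k w hw).2.2.1,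
      fun w hw => (hγ k w hw).2.2.2.1, fun w hw => (hγ k w hw).2.2.2.2⟩
  set b : Cm 3 := zx (lst x) with hb
  have e1 : ∀ᶠ w in 𝓝 b, w ∈ ball b r ∧ ∀ k, γ k w ∈ D := by
    refine (isOpen_ball.eventually_mem (mem_ball_self hr)).and (eventually_all.2 fun k => ?_)
    refine ((hpl k).an b (mem_ball_self hr)).continuousAt.eventually (hch.isOpen.mem_nhds ?_)
    rw [hb, (hpl k).at_zx (mem_ball_self hr), zz_lst hx0 hx1]
    exact hx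
  obtain ⟨r₁, hr₁, h1⟩ := Metric.eventually_nhds_iff_ball.1 e1
  set r₂ := min r₁ r with hr₂
  have hr₂0 : 0 < r₂ := lt_min hr₁ hr
  have hpl₂ : ∀ k, IsPl σ b r₂ (γ k) := fun k =>
    have hs : ball b r₂ ⊆ ball b r := ball_subset_ball (min_le_right _ _)
    ⟨fun w hw => (hpl k).an w (hs hw), fun w hw => (hpl k).zero w (hs hw),
      fun w hw => (hpl k).c2 w (hs hw), fun w hw => (hpl k).c3 w (hs hw),
      fun w hw => (hpl k).exc w (hs hw)⟩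
  have hγD : ∀ k, ∀ w ∈ ball b r₂, γ k w ∈ D := fun k w hw =>
    (h1 w (ball_subset_ball (min_le_left _ _) hw)).2 k
  have hthin := fun k => place_lift (ψ := ψ) (S := S) hB1 hι hdim hLi hBH hch hσ
    (zx_zero (lst x)) (hpl₂ k) (hγD k)
  have hTcv := cv_iUnion hthin
  have himg : Cv 1 ((fun w : Cm 3 => zz ![w 1, w 2]) '' (⋃ k, {w : Cm 3 | w ∈ ball b r₂ ∧
      w 0 = 0 ∧ ¬ ∃ ρ > 0, ∃ q : Cm 3 → H, ∀ w' ∈ ball w ρ,
        LiftD O v ι (fun w => ψ (γ k w)) q w'})) := by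
    refine Cv.image hTcv isOpen_univ (subset_univ _) fun w _ => ?_
    refine AnalyticAt.fun_comp (zz_an _) (AnalyticAt.pi fun k => ?_)
    fin_cases k
    · exact (ContinuousLinearMap.proj (R := ℂ) (φ := fun _ : Fin 3 => ℂ) 1).analyticAt w
    · exact (ContinuousLinearMap.proj (R := ℂ) (φ := fun _ : Fin 3 => ℂ) 2).analyticAt w
  refine ⟨ball x r₂, ball_mem_nhds x hr₂0, himg.mono ?_⟩
  rintro x' ⟨hx', hx'D, hx'0, hx'1, -, hx'G⟩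
  by_contra hcon
  apply hx'G
  have hzx' : zx (lst x') ∈ ball b r₂ := by
    rw [mem_ball, hb, dist_zx, ← dist_zz, zz_lst hx'0 hx'1, zz_lst hx0 hx1]
    exact hx'
  have hl : ∀ k, ∃ ρ > 0, ∃ q : Cm 3 → H, ∀ w' ∈ ball (zx (lst x')) ρ,
      LiftD O v ι (fun w => ψ (γ k w)) q w' := by
    intro k
    by_contra hk
    apply hcon
    refine ⟨zx (lst x'), mem_iUnion.2 ⟨k, hzx', rfl, hk⟩, ?_⟩
    show zz ![lst x' 0, lst x' 1] = x'
    have : (![lst x' 0, lst x' 1] : Cm 2) = lst x' := by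
      ext i; fin_cases i <;> rfl
    rw [this, zz_lst hx'0 hx'1]
  have hd : dist x' x < r₂ := hx'
  have hdb : dist (zx (lst x')) b = dist x' x := by
    rw [hb, dist_zx, ← dist_zz, zz_lst hx'0 hx'1, zz_lst hx0 hx1]
  have hs3 : ball (zx (lst x')) (r₂ - dist x' x) ⊆ ball b r₂ :=
    ball_subset_ball' (by rw [hdb]; linarith)
  obtain ⟨r', q, hG⟩ := good_of (S := S) (B := B) hι hv hdim hch hσ hx'D hx'0 hx'1
    (r := r₂ - dist x' x) (γ := γ) (by linarith)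
    (fun k => ⟨fun w hw => (hpl₂ k).an w (hs3 hw), fun w hw => (hpl₂ k).zero w (hs3 hw),
      fun w hw => (hpl₂ k).c2 w (hs3 hw), fun w hw => (hpl₂ k).c3 w (hs3 hw),
      fun w hw => (hpl₂ k).exc w (hs3 hw)⟩)
    (fun x'' hx'' h0 h1 ε hε => hcov x'' (ball_subset_ball' (by
      have : r₂ ≤ r := min_le_right _ _
      linarith) hx'') h0 h1 ε hε) hl
  exact ⟨d, _, _, r', _, q, hG, by show ψ (zz (lst x')) = ψ x'; rw [zz_lst hx'0 hx'1]⟩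

/-- the bad points are thin -/
theorem bad_thin [T2Space Y] [CompactSpace H] [Nonempty H] [IsManifold 𝓘(ℂ, Cm 4) ω Y]
    [IsManifold 𝓘(ℂ, Cm 3) ω H] (hPl : StPlace) (hB1 : StB1) (hL1 : StL1) (hι : IsSub ι)
    (hv : IsOpenEmb X O v)
    (hdim : DimLe X 2 (v '' O)ᶜ) (hLi : Lifts X O v)
    (hBe : ∀ x, ∃ σ, X.Hol σ x ∧ ∀ᶠ x' in 𝓝 x, x' ∈ B ↔ σ x' = 0)
    (hBH : ∀ y ∈ O, v y ∈ B ↔ y ∈ range ι) (hS : IsAn X univ S) (hS2 : DimLe X 2 S)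
    (hreg : DimLe X 1 {x | x ∈ S ∧ ¬ IsReg 4 X x}) : DimLe X 1 (S \ GS S B O v ι) := by
  have : Nonempty X.pt := hdim.nonempty
  have h3 : DimLe X 1 {x | x ∈ S ∧ IsReg 4 X x ∧ IsSurfX X S x ∧ x ∉ GS S B O v ι} := by
    refine dimLe_of_local ?_
    rintro x ⟨hxS, hxr, hxs, -⟩
    obtain ⟨ψ, D, z, hch, hz, hzx⟩ := exists_sChart hxr hxs
    obtain ⟨σ, hσ, hσB⟩ := hBe x
    obtain ⟨U, hU, hUo, hxU⟩ := _root_.eventually_nhds_iff.1 ((hol_eventually hσ).and hσB)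
    have hDo : IsOpen (D ∩ ψ ⁻¹' U) := by
      rw [isOpen_iff_mem_nhds]
      rintro w ⟨hw, hwU⟩
      exact inter_mem (hch.isOpen.mem_nhds hw)
        ((hch.cont w hw).preimage_mem_nhds (hUo.mem_nhds hwU))
    have hch' := hch.mono hDo inter_subset_left
    have hσ' : ∀ z ∈ D ∩ ψ ⁻¹' U, (ψ z ∈ B ↔ σ (ψ z) = 0) := fun w hw => (hU _ hw.2).2
    have hnz : ∀ z ∈ D ∩ ψ ⁻¹' U, ¬ (fun z => σ (ψ z)) =ᶠ[𝓝 z] 0 := fun w hw =>
      not_zero (σ := fun z => σ (ψ z)) hι hv hdim hBH hch' hσ' hw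
    have han : ∀ z ∈ D ∩ ψ ⁻¹' U, AnalyticAt ℂ (fun z => σ (ψ z)) z := fun w hw =>
      (hch'.hol w hw σ).1 (hU _ hw.2).1
    have hb1 : Cv 1 {x | x ∈ D ∩ ψ ⁻¹' U ∧ x 0 = 0 ∧ x 1 = 0 ∧ ¬ PlaceAt (fun z => σ (ψ z)) x} :=
      hPl _ hDo _ han hnz
    have hb2 := chart_bad (σ := fun z => σ (ψ z)) hB1 hι hv hdim hLi hBH hch' hσ'
    refine ⟨ψ '' (D ∩ ψ ⁻¹' U), hch'.openMap _ Subset.rfl hDo,
      ⟨z, ⟨hz, by rw [mem_preimage, hzx]; exact hxU⟩, hzx⟩, (hch'.dimLe (hb1.union hb2)).mono ?_⟩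
    rintro _ ⟨⟨w, hw, rfl⟩, hwS, -, -, hwG⟩
    obtain ⟨h0, h1⟩ := (hch'.mem w hw).1 hwS
    refine ⟨w, ⟨hw, ?_⟩, rfl⟩
    by_cases hP : PlaceAt (fun z => σ (ψ z)) w
    · exact Or.inr ⟨hw, h0, h1, hP, hwG⟩
    · exact Or.inl ⟨hw, h0, h1, hP⟩
  refine ((hreg.union (hL1 X S hS hS2)).union h3).mono ?_
  rintro x ⟨hxS, hxG⟩
  by_cases hr : IsReg 4 X x
  · by_cases hs : IsSurfX X S x
    · exact Or.inr ⟨hxS, hr, hs, hxG⟩
    · exact Or.inl (Or.inr ⟨hxS, hs⟩)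
  · exact Or.inl (Or.inl ⟨hxS, hr⟩)

end Vale.Agent.P277.H60.X
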